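import Vale.Agent.P275PA.Dfs
import Vale.Agent.P275S.Loc
import Vale.Agent.P275S.SoftB

/-! From the support condition on stalks to the vanishing of compactly supported cohomology of
closed subsets. -/

open CategoryTheory TopologicalSpace CochainComplex.HomComplex P275S P275JM P275CL Set

noncomputable section

namespace P275PA

variable {k : Type} [Field k] {Y : TopCat.{0}}

/-- Sections with compact support in `U` modulo those vanishing near `Z`. -/
def GcZ (k : Type) [Field k] (U : Opens Y) (Z : Set Y) : Sh k Y ⥤ ModuleCat.{0} k where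
  obj F := ModuleCat.of k (cpt F U ⧸ (Nv F Z).comap (cpt F U).subtype)
  map φ := ModuleCat.ofHom (Submodule.mapQ _ _
    ((app φ ⊤).restrict fun _ hs => app_mem_cpt φ hs) fun _ hs => app_mem_Nv φ hs)
  map_id F := by
    ext s
    rfl
  map_comp _ _ := by
    ext s
    rfl

instance (U : Opens Y) (Z : Set Y) : (GcZ k U Z).Additive where
  map_add := by
    intros
    ext s
    obtain ⟨s, rfl⟩ := Submodule.Quotient.mk_surjective _ s
    rfl

instance (U : Opens Y) (Z : Set Y) : (GcZ k U Z).Linear k where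
  map_smul _ _ := by
    ext s
    obtain ⟨s, rfl⟩ := Submodule.Quotient.mk_surjective _ s
    rfl

/-- The class of a section with compact support. -/
def gcz {F : Sh k Y} {U : Opens Y} (Z : Set Y) : cpt F U →ₗ[k] (GcZ k U Z).obj F :=
  Submodule.mkQ _

theorem gcz_surj {F : Sh k Y} {U : Opens Y} {Z : Set Y} (x : (GcZ k U Z).obj F) :
    ∃ s : cpt F U, gcz Z s = x := Submodule.Quotient.mk_surjective _ x

theorem gcz_eq_zero {F : Sh k Y} {U : Opens Y} {Z : Set Y} (s : cpt F U) :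
    gcz Z s = 0 ↔ s.1 ∈ Nv F Z := Submodule.Quotient.mk_eq_zero _

theorem gcz_eq {F : Sh k Y} {U : Opens Y} {Z : Set Y} (s t : cpt F U) :
    gcz Z s = gcz Z t ↔ s.1 - t.1 ∈ Nv F Z := by
  rw [← sub_eq_zero, ← map_sub, gcz_eq_zero]; rfl

theorem map_gcz {F G : Sh k Y} (φ : F ⟶ G) {U : Opens Y} {Z : Set Y} (s : cpt F U) :
    ((GcZ k U Z).map φ).hom (gcz Z s) = gcz Z ⟨app φ ⊤ s, app_mem_cpt φ s.2⟩ := rfl

instance stkLin (x : Y) : (Stk k x).Linear k where
  map_smul {F G} f r := by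
    ext z
    obtain ⟨U, -, hx, s, rfl⟩ := exists_gm F z (W := ⊤) trivial
    change ((Stk k x).map (r • f)).hom _ = r • ((Stk k x).map f).hom _
    rw [stk_map_gm, stk_map_gm, app_smul, map_smul]

variable {F G : Cx k Y}

theorem killF_gcz (p : F ⟶ G) (U : Opens Y) (Z : Set Y) (n : ℤ) :
    KillF (GcZ k U Z) p n ↔ ∀ s ∈ cpt (F.X n) U, app (F.d n (n + 1)) ⊤ s ∈ Nv _ Z →
      ∃ t ∈ cpt (G.X (n - 1)) U, app (G.d (n - 1) n) ⊤ t - app (p.f n) ⊤ s ∈ Nv _ Z := by
  constructor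
  · intro h s hs hd
    obtain ⟨y, hy⟩ := h (gcz Z ⟨s, hs⟩) (by rw [map_gcz, gcz_eq_zero]; exact hd)
    obtain ⟨t, rfl⟩ := gcz_surj y
    rw [map_gcz, map_gcz, gcz_eq] at hy
    exact ⟨t, t.2, hy⟩
  · intro h x hx
    obtain ⟨s, rfl⟩ := gcz_surj x
    rw [map_gcz, gcz_eq_zero] at hx
    obtain ⟨t, ht, ht'⟩ := h s s.2 hx
    exact ⟨gcz Z ⟨t, ht⟩, by rw [map_gcz, map_gcz, gcz_eq]; exact ht'⟩

theorem killF_stk (p : F ⟶ G) (x : Y) (n : ℤ) : KillF (Stk k x) p n ↔ ZeroAt p n x := by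
  constructor
  · intro h U hx s hs
    obtain ⟨y, hy⟩ := h (gm _ hx s) (by rw [stk_map_gm, hs, map_zero])
    rw [stk_map_gm] at hy
    obtain ⟨V, hV, hxV, t, -, ht⟩ := exists_of_gm _ y hx _ hy
    exact ⟨V, hV, hxV, t, ht⟩
  · intro h z hz
    obtain ⟨U, -, hx, s, rfl, hs⟩ := exists_gm_ker _ z hz (W := ⊤) trivial
    obtain ⟨V, hV, hxV, t, ht⟩ := h U hx s hs
    exact ⟨gm _ hxV t, by rw [stk_map_gm, stk_map_gm, ht, gm_res]⟩

theorem Dm.mono {V : Type} [TopologicalSpace V] {Z : Set V} {d d' : ℤ} (h : Dm Z d)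
    (hd : d ≤ d') : Dm Z d' :=
  ⟨h.1, h.2.imp id fun ⟨n, hn, g⟩ => ⟨n, by omega, g⟩⟩

theorem Dm.subset {V : Type} [TopologicalSpace V] {Z Z' : Set V} {d : ℤ} (h : Dm Z d)
    (hZ : IsClosed Z') (hs : Z' ⊆ Z) : Dm Z' d :=
  ⟨hZ, h.2.imp (fun (e : Z = ∅) => subset_empty_iff.1 (e ▸ hs)) fun ⟨n, hn, g, hg, hf⟩ =>
    ⟨n, hn, g, hg, fun y => (hf y).subset (inter_subset_inter_left _ hs)⟩⟩

theorem Dm.eq_empty {V : Type} [TopologicalSpace V] {Z : Set V} {d : ℤ} (h : Dm Z d)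
    (hd : d < 0) : Z = ∅ := h.2.elim id fun ⟨n, hn, _⟩ => by omega

variable [Nice Y] {p : F ⟶ F} {A B : Set Y} {n : ℤ}

theorem van_dm_step (hF : SoftC F) (hp : Homotopy (p ≫ p) p) (hA : IsClosed A) (hB : IsCompact B)
    {S : Set Y} (hS : IsClosed S) {d c : ℤ} (hd : Dm B d)
    (h : ∀ x ∈ B, x ∉ S → ∀ j, c < j → ZeroAt p j x) (hn : c + 2 * d < n)
    (h₁ : Van p A (B ∩ S) n) : Van p A B n := by
  rcases hd.2 with rfl | ⟨N, hN, g, hg, hf⟩
  · exact van_empty p
  refine van_fil hp (A₂ := A ∪ S) subset_union_left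
    (van_cd_fin hF hp (hA.union hS) hB g hg.continuousOn hf (c := c)
      (fun x hx hx' => h x hx fun e => hx' (Or.inr e)) (by omega)) ?_
  rw [union_inter_distrib_right, inter_comm S]
  exact van_union hF hp hA (hB.inter_left hA) (hB.inter_right hS)
    (van_of_subset _ (inter_subset_left.trans inter_subset_left))
    (van_of_subset _ inter_subset_left) h₁

/-- The dimension count: stalks vanish in degree above `c + l` off a set of dimension
`r - c - 1`, then cohomology of a compact set of dimension `d` vanishes above `r + l + d`. -/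
theorem van_dm (hF : SoftC F) (hp : Homotopy (p ≫ p) p) (hA : IsClosed A) (hB : IsCompact B)
    {d r l : ℤ} (hd : Dm B d)
    (h : ∀ c, ∃ Z : Set Y, Dm Z (r - c - 1) ∧ ∀ x ∉ Z, ∀ j, c + l < j → ZeroAt p j x)
    (hn : r + l + d < n) : Van p A B n := by
  choose Z hZ hz using h
  let S : ℤ → Set Y := fun c => ⋂ c' ≤ c, Z c'
  have hS : ∀ c, IsClosed (S c) := fun c => isClosed_biInter fun c' _ => (hZ c').1
  have hSZ : ∀ c, S c ⊆ Z c := fun c => biInter_subset_of_mem (le_refl c)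
  have hoff : ∀ c, ∀ x ∉ S c, ∀ j, c + l < j → ZeroAt p j x := by
    intro c x hx j hj
    simp only [S, mem_iInter, not_forall] at hx
    obtain ⟨c', hc', hx⟩ := hx
    exact hz c' x hx j (by omega)
  have key : ∀ a : ℕ, Van p A (B ∩ S (r - a)) n := by
    intro a
    induction a with
    | zero =>
      have := subset_empty_iff.1 ((hZ (r - (0 : ℕ))).eq_empty (by simp) ▸ hSZ (r - (0 : ℕ)))
      rw [this, inter_empty]
      exact van_empty p
    | succ a ih =>
      have hc := hB.inter_right (hS (r - (a + 1 : ℕ)))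
      have e : B ∩ S (r - (a + 1 : ℕ)) ∩ S (r - a) = B ∩ S (r - a) := by
        have : S (r - a) ⊆ S (r - (a + 1 : ℕ)) :=
          biInter_subset_biInter_left fun c' (hc' : c' ≤ _) =>
            (by push_cast at hc'; omega : c' ≤ r - a)
        rw [inter_assoc, inter_eq_right.2 this]
      by_cases hda : d ≤ a
      · exact van_dm_step hF hp hA hc (hS (r - a)) (hd.subset hc.isClosed inter_subset_left)
          (fun x _ hx => hoff _ x hx) (by omega) (e ▸ ih)
      · exact van_dm_step hF hp hA hc (hS (r - a))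
          ((hZ _).subset hc.isClosed (inter_subset_right.trans (hSZ _)))
          (fun x _ hx => hoff _ x hx) (by push_cast; omega) (e ▸ ih)
  exact van_dm_step hF hp hA hB (hS (r - d.toNat)) hd (fun x _ hx => hoff _ x hx)
    (by
      by_cases h0 : 0 ≤ d
      · omega
      · omega) (key d.toNat)

theorem killF_gcz_of_dm (hF : SoftC F) (hp : Homotopy (p ≫ p) p) (U : Opens Y) {Z : Set Y}
    {d r l : ℤ} (hd : Dm Z d)
    (h : ∀ c, ∃ Z : Set Y, Dm Z (r - c - 1) ∧ ∀ x ∉ Z, ∀ j, c + l < j → ZeroAt p j x)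
    (hn : r + l + d < n) : KillF (GcZ k U Z) p n :=
  (killF_gcz p U Z n).2 fun _ hs hd' => gamc_of_van_rel (hF.2 _) U hd.1
    (fun _ hL _ => van_dm hF hp isOpen_interior.isClosed_compl (hL.inter_right hd.1)
      (hd.subset (hL.inter_right hd.1).isClosed inter_subset_right) h hn) hs hd'

omit [Nice Y] in
/-- Chain level representatives of the weight projectors. -/
theorem exists_rep {C : Type*} [Category C] [Preadditive C] [Linear k C]
    {J : CochainComplex C ℤ} {f : End (KG.of J : KG k C)} (hf : f ∈ KG.deg k _ _ 0)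
    (hff : f * f = f) : ∃ p : J ⟶ J, KG.hom k p = f ∧ Nonempty (Homotopy (p ≫ p) p) := by
  obtain ⟨p, rfl⟩ := KG.mem_deg_zero.1 hf
  exact ⟨p, rfl, (KG.hom_eq_iff k _ _).1 ((KG.hom_comp k p p).trans hff)⟩

/-- Surjectivity ranges on stalks give the surjectivity range with compact supports. -/
theorem ontoF_gcz [CharZero k] (hF : SoftC F) {e D H : End (KG.of F : KG k (Sh k Y))} {N : ℕ}
    (h : Mor e D H N) (he : e ∈ KG.deg k _ _ 2) (hD : D ∈ KG.deg k _ _ (-2)) {r : ℤ}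
    (h1 : ∀ c, ∃ Z : Set Y, Dm Z (r - c - 1) ∧ ∀ x ∉ Z, OntoF (Stk k x) e c)
    (U : Opens Y) {Z : Set Y} {d : ℤ} (hd : Dm Z d) : OntoF (GcZ k U Z) e (r + d) := by
  refine (gd_act _ he hD).onto_of_zero (h.map (act (GcZ k U Z) _)) fun m l hml v hv => ?_
  obtain ⟨p, hp, ⟨hpp⟩⟩ := exists_rep (pr_mem (deg0 k _) (H_mem_deg h he hD) N l)
    ((h.spec (k := k)).pr_mul_pr l)
  rw [← map_pr, ← hp]
  refine (killF_iff _ p m).1 (killF_gcz_of_dm hF hpp U (r := r) (l := l) hd (fun c => ?_)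
    (by omega)) v hv
  obtain ⟨Z', hZ', ho⟩ := h1 c
  refine ⟨Z', hZ', fun x hx j hj => (killF_stk p x j).1 ((killF_iff _ p j).2 fun w hw => ?_)⟩
  rw [hp, map_pr]
  exact (gd_act _ he hD).pr_zero_of_onto (h.map (act (Stk k x) _)) (ho x hx) (by omega) hw

end P275PA
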