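import Vale.Agent.P275PA.Push
import Vale.Agent.P275S.Cls
import Vale.Agent.P275S.KInj
import Vale.Agent.P275Z.Top

/-! The weight filtration on total cohomology: elements, homogeneity, vanishing. -/

open CategoryTheory TopologicalSpace CochainComplex CochainComplex.HomComplex P275S P275JM
open Set HomologicalComplex Limits Vale.Agent.P275Z

noncomputable section

namespace P275PA

section El

variable {k : Type} [Field k] {M : CochainComplex (ModuleCat.{0} k) ℤ} {m : ℤ}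

theorem el_congr {x y : M.X m} (h : x = y) (hx : (M.d m (m + 1)).hom x = 0)
    (hy : (M.d m (m + 1)).hom y = 0) : el x hx = el y hy := by
  subst h
  rfl

theorem el_zero (h : (M.d m (m + 1)).hom (0 : M.X m) = 0) : el 0 h = 0 :=
  (el_eq_zero_iff _ h).2 ⟨0, map_zero _⟩

theorem el_add {x y : M.X m} (hx : (M.d m (m + 1)).hom x = 0) (hy : (M.d m (m + 1)).hom y = 0)
    (h : (M.d m (m + 1)).hom (x + y) = 0) : el (x + y) h = el x hx + el y hy := by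
  rw [← sub_eq_iff_eq_add, ← el_sub]
  exact el_congr (add_sub_cancel_right x y) _ _

theorem el_smul (a : k) {x : M.X m} (hx : (M.d m (m + 1)).hom x = 0)
    (h : (M.d m (m + 1)).hom (a • x) = 0) : el (a • x) h = a • el x hx := by
  have := el_comp_hom (a • 𝟙 M) x hx
  rw [KG.hom_smul, KG.hom_id, Linear.comp_smul, Category.comp_id] at this
  rw [this]
  exact el_congr (by simp) _ _

end El

variable {X Y : TopCat.{0}} {m w : ℤ}

theorem cl_mem (c : CocyK ℂ X m) : cl c ∈ Gv (Gam ℂ ⊤) (IX X) m :=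
  el_mem (M := (mapC (Gam ℂ ⊤)).obj (I ℂ X)) c.1 c.2

theorem exists_cl {v : HX X} (hv : v ∈ Gv (Gam ℂ ⊤) (IX X) m) : ∃ c : CocyK ℂ X m, cl c = v := by
  obtain ⟨x, hx, e⟩ := exists_el (M := (mapC (Gam ℂ ⊤)).obj (I ℂ X)) hv
  exact ⟨⟨x, hx⟩, e⟩

theorem cl_eq_iff (c c' : CocyK ℂ X m) :
    cl c = cl c' ↔ ∃ b, app ((I ℂ X).d (m - 1) m) ⊤ b = c.1 - c'.1 :=
  el_eq_iff (M := (mapC (Gam ℂ ⊤)).obj (I ℂ X)) c.1 c'.1 c.2 c'.2

theorem cl_eq_zero_iff (c : CocyK ℂ X m) :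
    cl c = 0 ↔ ∃ b, app ((I ℂ X).d (m - 1) m) ⊤ b = c.1 :=
  el_eq_zero_iff (M := (mapC (Gam ℂ ⊤)).obj (I ℂ X)) c.1 c.2

theorem clsK_eq_iff (f : X ⟶ Y) (c c' : CocyK ℂ X m) : clsK f c = clsK f c' ↔ cl c = cl c' :=
  (((injC_I ℂ X).push f).clsOK.eq_iff (c := c.1) (c' := c'.1) c.2 c'.2).trans
    (cl_eq_iff c c').symm

theorem clsK_eq_zero_iff (f : X ⟶ Y) (c : CocyK ℂ X m) : clsK f c = 0 ↔ cl c = 0 :=
  (((injC_I ℂ X).push f).clsOK.eq_zero_iff (c := c.1) c.2).trans (cl_eq_zero_iff c).symm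

theorem exists_pr (j : X ⟶ Y) {v : HX X} (hv : v ∈ Wt j w) (m : ℤ) :
    ∃ c : CocyK ℂ X m, InWK j w c ∧ cl c = KG.pr m v := by
  have h0 : ∃ c : CocyK ℂ X m, InWK j w c ∧ cl c = 0 :=
    ⟨⟨0, map_zero _⟩, ⟨0, zero_comp.trans (cls_zero (F := (pushC ℂ j).obj (I ℂ X)) _).symm⟩,
      el_zero (M := (mapC (Gam ℂ ⊤)).obj (I ℂ X)) _⟩
  induction hv using Submodule.span_induction with
  | mem v hv =>
    obtain ⟨n, c, hc, rfl⟩ := hv
    by_cases hn : n = m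
    · subst hn
      exact ⟨c, hc, (KG.pr_of_mem (cl_mem c)).symm⟩
    · rwa [KG.pr_of_ne (cl_mem c) hn]
  | zero => rwa [map_zero]
  | add x y _ _ hx hy =>
    obtain ⟨a, ⟨φ, hφ⟩, ha⟩ := hx
    obtain ⟨b, ⟨ψ, hψ⟩, hb⟩ := hy
    refine ⟨⟨a.1 + b.1, by rw [map_add, a.2, b.2, add_zero]⟩, ⟨φ + ψ, ?_⟩, ?_⟩
    · rw [Preadditive.add_comp, hφ, hψ]
      exact (cls_add (F := (pushC ℂ j).obj (I ℂ X)) a.2 b.2 _).symm
    · rw [map_add (KG.pr m), ← ha, ← hb]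
      exact el_add (M := (mapC (Gam ℂ ⊤)).obj (I ℂ X)) a.2 b.2 _
  | smul r x _ hx =>
    obtain ⟨a, ⟨φ, hφ⟩, ha⟩ := hx
    refine ⟨⟨r • a.1, by rw [map_smul, a.2, smul_zero]⟩, ⟨r • φ, ?_⟩, ?_⟩
    · rw [Linear.smul_comp, hφ]
      exact (cls_smul (F := (pushC ℂ j).obj (I ℂ X)) r a.2 _).symm
    · rw [map_smul (KG.pr m), ← ha]
      exact el_smul (M := (mapC (Gam ℂ ⊤)).obj (I ℂ X)) r a.2 _

theorem cl_mem_Wt (j : X ⟶ Y) (c : CocyK ℂ X m) : cl c ∈ Wt j w ↔ InWK j w c := by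
  refine ⟨fun h => ?_, fun h => Submodule.subset_span ⟨m, c, h, rfl⟩⟩
  obtain ⟨c', ⟨φ, hφ⟩, e⟩ := exists_pr j h m
  rw [KG.pr_of_mem (cl_mem c)] at e
  exact ⟨φ, hφ.trans ((clsK_eq_iff j _ _).2 e)⟩

theorem pr_mem_Wt (j : X ⟶ Y) {v : HX X} (hv : v ∈ Wt j w) (m : ℤ) : KG.pr m v ∈ Wt j w := by
  obtain ⟨c, hc, e⟩ := exists_pr j hv m
  exact e ▸ (cl_mem_Wt j c).2 hc

/-- The weights of `H^m` are at least `m`. -/
theorem Wt_zero (j : X ⟶ Y) {v : HX X} (hv : v ∈ Wt j w) (hm : v ∈ Gv (Gam ℂ ⊤) (IX X) m)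
    (h : w < m) : v = 0 := by
  obtain ⟨c, rfl⟩ := exists_cl hm
  obtain ⟨φ, hφ⟩ := (cl_mem_Wt j c).1 hv
  have : (I ℂ X).IsStrictlyGE 0 :=
    inferInstanceAs ((injectiveResolution (cst ℂ X)).cochainComplex.IsStrictlyGE 0)
  have := mapC_isStrictlyGE (push ℂ j) (I ℂ X) 0
  have : (RK ℂ j).IsGE (w - m + 1) :=
    DerivedCategory.TStructure.t.isGE_of_ge (RK ℂ j) _ 0 (by omega)
  have h0 := DerivedCategory.TStructure.t.isZero_truncLE_obj_of_isGE (w - m) _ rfl (RK ℂ j)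
  rw [← clsK_eq_zero_iff j, ← hφ, h0.eq_of_tgt φ 0, zero_comp]

variable {e : End (IX X)} {r : ℤ}

/-- Curious Lefschetz bounds the cohomological degree. -/
theorem van (j : X ⟶ Y) (he : e ∈ KG.deg ℂ _ _ 2)
    (hL : Lef (mulH X e) r fun a => Wt j (2 * a)) (hm : 2 * r < m) {v : HX X}
    (hv : v ∈ Gv (Gam ℂ ⊤) (IX X) m) : v = 0 := by
  have key : ∀ n : ℕ, v ∈ Wt j (2 * (r + n - 1)) → v = 0 := by
    intro n
    induction n with
    | zero => exact fun h => Wt_zero j h hv (by omega)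
    | succ n ih =>
      intro h
      obtain ⟨u, hu, hu'⟩ := hL.surj n v (hL.cast h (by omega))
      have h1 := pr_mem_Wt j hu' m
      have h2 : KG.pr m ((mulH X e ^ n) u) =
          KG.pr (m - 2 * n) u ≫ (KG.map ℂ (Gam ℂ ⊤)).map (e ^ n : End (IX X)) := by
        rw [← map_pow]
        exact KG.pr_comp_of_right (sub_add_cancel m _) u
          (KG.map_mem_deg (Gam ℂ ⊤) (pow_mem_deg he n))
      rw [map_sub, KG.pr_of_mem hv, h2,
        Wt_zero j (pr_mem_Wt j hu _) (KG.pr_mem_deg _ u) (by omega), zero_comp, sub_zero] at h1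
      exact ih h1
  obtain ⟨a, ha⟩ := hL.top v
  exact key (a - r + 1).toNat (hL.cast ha (by omega))

theorem van_killF (j : X ⟶ Y) (he : e ∈ KG.deg ℂ _ _ 2)
    (hL : Lef (mulH X e) r fun a => Wt j (2 * a)) (hm : 2 * r < m) :
    KillF (Gam ℂ ⊤) (𝟙 (I ℂ X)) m :=
  (killF_iff _ _ m).2 fun v hv => by rw [van j he hL hm hv, map_zero]

theorem van_sec (j : X ⟶ Y) (he : e ∈ KG.deg ℂ _ _ 2)
    (hL : Lef (mulH X e) r fun a => Wt j (2 * a)) (hm : 2 * r < m) (s : sec ((I ℂ X).X m) ⊤)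
    (hs : app ((I ℂ X).d m (m + 1)) ⊤ s = 0) : ∃ t, app ((I ℂ X).d (m - 1) m) ⊤ t = s :=
  (cl_eq_zero_iff ⟨s, hs⟩).1 (van j he hL hm (cl_mem _))

theorem end_zero (j : X ⟶ Y) (he : e ∈ KG.deg ℂ _ _ 2)
    (hL : Lef (mulH X e) r fun a => Wt j (2 * a)) (hm : 2 * r < m) {f : End (IX X)}
    (hf : f ∈ KG.deg ℂ _ _ m) : f = 0 := by
  refine KG.cancel_qis (ιI ℂ X) (injC_I ℂ X) (Eq.trans ?_ comp_zero.symm)
  obtain ⟨v, hv, h⟩ := exists_clT (T := cst ℂ X)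
    (KG.comp_mem_deg (zero_add m) (KG.hom_mem_deg (ιI ℂ X)) hf)
  obtain ⟨t, ht⟩ := van_sec j he hL hm (app v ⊤ (cstOne ℂ ⊤))
    (congrArg (fun g => app g ⊤ (cstOne ℂ ⊤)) hv)
  exact h.symm.trans ((clT_eq_zero_iff v hv).2 ⟨secHom t, by rw [secHom_comp, ht, secHom_app]⟩)

theorem nil (j : X ⟶ Y) (he : e ∈ KG.deg ℂ _ _ 2)
    (hL : Lef (mulH X e) r fun a => Wt j (2 * a)) : e ^ (r.toNat + 1) = 0 :=
  end_zero j he hL (by omega) (pow_mem_deg he _)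

theorem glob_mulK (h : X ⟶ Y) (e : End (IX X)) : glob h (mulK h e) = mulH X e := by
  have : ∀ x : IX X ⟶ IX X, (KG.map ℂ (Gam ℂ ⊤)).map ((KG.map ℂ (push ℂ h)).map x) =
      (KG.map ℂ (Gam ℂ ⊤)).map x := by
    intro x
    induction x using KG.ind with
    | h0 => simp only [Functor.map_zero]; rfl
    | hadd x y hx hy => simp only [Functor.map_add, hx, hy]; rfl
    | hmk n z =>
      exact (congrArg _ (KG.map_mk (push ℂ h) z)).trans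
        ((KG.map_mk (Gam ℂ ⊤) _).trans (KG.map_mk (Gam ℂ ⊤) z).symm)
  exact LinearMap.ext fun v => congrArg (v ≫ ·) (this e)

theorem clsK_comp_iff (h : X ⟶ Y) (p : (pushC ℂ h).obj (I ℂ X) ⟶ (pushC ℂ h).obj (I ℂ X))
    (c : CocyK ℂ X m) :
    clsK h c ≫ DerivedCategory.Q.map p = clsK h c ↔ glob h (KG.hom ℂ p) (cl c) = cl c := by
  let c' : CocyK ℂ X m := ⟨app (p.f m) ⊤ c.1, cocy_map p (m := m) (U := ⊤) (c := c.1) c.2⟩
  have h1 : clsK h c ≫ DerivedCategory.Q.map p = clsK h c' := cls_comp _ _ p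
  have h2 : glob h (KG.hom ℂ p) (cl c) = cl c' :=
    (congrArg (cl c ≫ ·) (KG.map_hom (Gam ℂ ⊤) p)).trans
      (el_comp_hom ((mapC (Gam ℂ ⊤)).map p) c.1 c.2)
  rw [h1, h2, clsK_eq_iff]

end P275PA
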