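import Vale.Agent.P275PA.CD

/-! Transport of the surjectivity and injectivity ranges along quasi-isomorphisms. -/

open CategoryTheory TopologicalSpace CochainComplex CochainComplex.HomComplex P275S P275JM P275CL
open Set HomologicalComplex Limits

noncomputable section

namespace P275PA

variable {k : Type} [Field k]

section Lin

variable {V V' : Type*} [AddCommGroup V] [Module k V] [AddCommGroup V'] [Module k V']

/-- A degreewise bijection commuting with the operators. -/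
structure Eqv (T : V →ₗ[k] V') (G : ℤ → Submodule k V) (G' : ℤ → Submodule k V')
    (e : Module.End k V) (e' : Module.End k V') : Prop where
  he : ∀ m, ∀ v ∈ G m, e v ∈ G (m + 2)
  comm : ∀ v, T (e v) = e' (T v)
  mem : ∀ m, ∀ v ∈ G m, T v ∈ G' m
  inj : ∀ m, ∀ v ∈ G m, T v = 0 → v = 0
  surj : ∀ m, ∀ w ∈ G' m, ∃ v ∈ G m, T v = w

variable {T : V →ₗ[k] V'} {G : ℤ → Submodule k V} {G' : ℤ → Submodule k V'}
  {e : Module.End k V} {e' : Module.End k V'}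

theorem Eqv.pow (h : Eqv T G G' e e') (j : ℕ) (v : V) : T ((e ^ j) v) = (e' ^ j) (T v) := by
  induction j with
  | zero => simp
  | succ j ih => rw [pow_succ', pow_succ', Module.End.mul_apply, Module.End.mul_apply, h.comm, ih]

theorem Eqv.onto_iff (h : Eqv T G G' e e') (c : ℤ) : Onto G e c ↔ Onto G' e' c := by
  constructor
  · intro ho j m hj w hw
    obtain ⟨v, hv, rfl⟩ := h.surj m w hw
    obtain ⟨u, hu, rfl⟩ := ho j m hj v hv
    exact ⟨T u, h.mem _ _ hu, (h.pow j u).symm⟩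
  · intro ho j m hj v hv
    obtain ⟨u', hu', h1⟩ := ho j m hj _ (h.mem m v hv)
    obtain ⟨u, hu, rfl⟩ := h.surj _ _ hu'
    refine ⟨u, hu, sub_eq_zero.1 (h.inj m _ (Submodule.sub_mem _ ?_ hv) ?_)⟩
    · simpa using P275CL.pow_mem h.he j _ _ hu
    · rw [map_sub, h.pow, h1, sub_self]

theorem Eqv.into_iff (h : Eqv T G G' e e') (c : ℤ) : Into G e c ↔ Into G' e' c := by
  constructor
  · intro hi j m hj w hw h0
    obtain ⟨v, hv, rfl⟩ := h.surj m w hw
    rw [hi j m hj v hv (h.inj _ _ (P275CL.pow_mem h.he j _ _ hv) (by rw [h.pow, h0])), map_zero]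
  · intro hi j m hj v hv h0
    exact h.inj m v hv (hi j m hj _ (h.mem m v hv) (by rw [← h.pow, h0, map_zero]))

end Lin

section Mod

variable {M M' : CochainComplex (ModuleCat.{0} k) ℤ}

theorem qis_inj (φ : M ⟶ M') [QuasiIso φ] (n : ℤ) (x : M.X n) (hx : (M.d n (n + 1)).hom x = 0)
    (y : M'.X (n - 1)) (hy : (M'.d (n - 1) n).hom y = (φ.f n).hom x) :
    ∃ a, (M.d (n - 1) n).hom a = x := by
  have h : ∀ i j, i = n - 1 → j = n + 1 → Mono (ShortComplex.homologyMap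
      ((shortComplexFunctor' _ (ComplexShape.up ℤ) i n j).map φ)) → ∃ a,
        (M.d (n - 1) n).hom a = x := by
    rintro _ _ rfl rfl hm
    exact (mod_mono_iff _).1 hm x hx y hy
  exact h _ _ (CochainComplex.prev ℤ n) (CochainComplex.next ℤ n)
    (inferInstanceAs (Mono (homologyMap φ n)))

theorem qis_surj (φ : M ⟶ M') [QuasiIso φ] (n : ℤ) (y : M'.X n)
    (hy : (M'.d n (n + 1)).hom y = 0) : ∃ x : M.X n, (M.d n (n + 1)).hom x = 0 ∧
      ∃ b, (φ.f n).hom x + (M'.d (n - 1) n).hom b = y := by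
  have h : ∀ i j, i = n - 1 → j = n + 1 → Epi (ShortComplex.homologyMap
      ((shortComplexFunctor' _ (ComplexShape.up ℤ) i n j).map φ)) →
      ∃ x : M.X n, (M.d n (n + 1)).hom x = 0 ∧
        ∃ b, (φ.f n).hom x + (M'.d (n - 1) n).hom b = y := by
    rintro _ _ rfl rfl hm
    exact (mod_epi_iff _).1 hm y hy
  exact h _ _ (CochainComplex.prev ℤ n) (CochainComplex.next ℤ n)
    (inferInstanceAs (Epi (homologyMap φ n)))

theorem deg_inj (φ : M ⟶ M') [QuasiIso φ] {n : ℤ} {v : pt k ⟶ KG.of M}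
    (hv : v ∈ KG.deg k _ _ n) (h0 : v ≫ KG.hom k φ = 0) : v = 0 := by
  obtain ⟨x, hx, rfl⟩ := exists_el hv
  rw [el_comp_hom, el_eq_zero_iff] at h0
  obtain ⟨y, hy⟩ := h0
  exact (el_eq_zero_iff x hx).2 (qis_inj φ n x hx y hy)

theorem deg_surj (φ : M ⟶ M') [QuasiIso φ] {n : ℤ} {w : pt k ⟶ KG.of M'}
    (hw : w ∈ KG.deg k _ _ n) : ∃ v ∈ KG.deg k (pt k) (KG.of M) n, v ≫ KG.hom k φ = w := by
  obtain ⟨y, hy, rfl⟩ := exists_el hw
  obtain ⟨x, hx, b, hb⟩ := qis_surj φ n y hy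
  refine ⟨el x hx, el_mem x hx, ?_⟩
  rw [el_comp_hom, eq_comm, el_eq_iff]
  exact ⟨b, by rw [← hb, add_sub_cancel_left]⟩

end Mod

section Fun

variable {C : Type*} [Category C] [Preadditive C] [Linear k C]
  (Φ : C ⥤ ModuleCat.{0} k) [Φ.Additive] [Φ.Linear k] {F J : CochainComplex C ℤ}

/-- A cocycle of the Hom complex as a graded endomorphism. -/
def emk (k : Type) [Field k] [Linear k C] {n : ℤ} (z : Cocycle F F n) : End (KG.of F : KG k C) :=
  KG.mk k z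

omit Φ in
theorem emk_mem {n : ℤ} (z : Cocycle F F n) : emk k z ∈ KG.deg k (KG.of F) (KG.of F) n :=
  KG.mk_mem_deg z

/-- The class of a cocycle of `Φ F`. -/
def elF {m : ℤ} (x : Φ.obj (F.X m)) (hx : (Φ.map (F.d m (m + 1))).hom x = 0) : Hv Φ (KG.of F) :=
  el (M := (mapC Φ).obj F) x hx

theorem elF_mem {m : ℤ} (x : Φ.obj (F.X m)) (hx : (Φ.map (F.d m (m + 1))).hom x = 0) :
    elF Φ x hx ∈ Gv Φ (KG.of F) m := el_mem (M := (mapC Φ).obj F) x hx

theorem exists_elF {m : ℤ} {v : Hv Φ (KG.of F)} (hv : v ∈ Gv Φ (KG.of F) m) :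
    ∃ x hx, elF Φ (m := m) x hx = v := exists_el (M := (mapC Φ).obj F) hv

theorem elF_eq_zero_iff {m : ℤ} (x : Φ.obj (F.X m)) (hx : (Φ.map (F.d m (m + 1))).hom x = 0) :
    elF Φ x hx = 0 ↔ ∃ y, (Φ.map (F.d (m - 1) m)).hom y = x :=
  el_eq_zero_iff (M := (mapC Φ).obj F) x hx

theorem elF_eq_iff {m : ℤ} (x y : Φ.obj (F.X m)) (hx : (Φ.map (F.d m (m + 1))).hom x = 0)
    (hy : (Φ.map (F.d m (m + 1))).hom y = 0) :
    elF Φ x hx = elF Φ y hy ↔ ∃ w, (Φ.map (F.d (m - 1) m)).hom w = x - y :=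
  el_eq_iff (M := (mapC Φ).obj F) x y hx hy

theorem act_emk_elF {n m m' : ℤ} (z : Cocycle F F n) (h : m + n = m') (x : Φ.obj (F.X m))
    (hx : (Φ.map (F.d m (m + 1))).hom x = 0) :
    act Φ _ (emk k z) (elF Φ x hx) = elF Φ ((Φ.map (z.1.v m m' h)).hom x)
      (v_d (M := (mapC Φ).obj F) (KG.zmap Φ z) h hx) :=
  (congrArg (elF Φ x hx ≫ ·) (KG.map_mk Φ z)).trans
    (el_comp_mk (M := (mapC Φ).obj F) (KG.zmap Φ z) h x hx)

theorem eqv_of_qis (φ : F ⟶ J) [QuasiIso ((mapC Φ).map φ)] {e' : End (KG.of F : KG k C)}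
    {e : End (KG.of J : KG k C)} (he' : e' ∈ KG.deg k _ _ 2)
    (h : e' ≫ KG.hom k φ = KG.hom k φ ≫ e) :
    Eqv (Linear.rightComp k (pt k) (KG.hom k ((mapC Φ).map φ))) (Gv Φ (KG.of F)) (Gv Φ (KG.of J))
      (act Φ _ e') (act Φ _ e) where
  he _ _ hv := KG.comp_mem_deg rfl hv (KG.map_mem_deg Φ he')
  comm v := by
    have h1 := congrArg (KG.map k Φ).map h
    rw [Functor.map_comp, Functor.map_comp, KG.map_hom] at h1
    exact (Category.assoc _ _ _).trans ((congrArg (v ≫ ·) h1).trans (Category.assoc _ _ _).symm)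
  mem _ _ hv := KG.comp_mem_deg (add_zero _) hv (KG.hom_mem_deg _)
  inj _ _ hv h0 := deg_inj _ hv h0
  surj _ _ hw := deg_surj _ hw

theorem ontoF_iff (φ : F ⟶ J) [QuasiIso ((mapC Φ).map φ)] {e' : End (KG.of F : KG k C)}
    {e : End (KG.of J : KG k C)} (he' : e' ∈ KG.deg k _ _ 2)
    (h : e' ≫ KG.hom k φ = KG.hom k φ ≫ e) (c : ℤ) : OntoF Φ e' c ↔ OntoF Φ e c :=
  (eqv_of_qis Φ φ he' h).onto_iff c

theorem intoF_iff (φ : F ⟶ J) [QuasiIso ((mapC Φ).map φ)] {e' : End (KG.of F : KG k C)}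
    {e : End (KG.of J : KG k C)} (he' : e' ∈ KG.deg k _ _ 2)
    (h : e' ≫ KG.hom k φ = KG.hom k φ ≫ e) (c : ℤ) : IntoF Φ e' c ↔ IntoF Φ e c :=
  (eqv_of_qis Φ φ he' h).into_iff c

omit [Linear k C] [Φ.Linear k] in
theorem qis_of_killF [HasBinaryBiproducts C] (φ : F ⟶ J)
    (h : ∀ n, KillF Φ (𝟙 (mappingCone φ)) n) : QuasiIso ((mapC Φ).map φ) := by
  rw [quasiIso_iff_cone]
  intro n
  rw [exactAt_iff_of_quasiIsoAt (mappingCone.mapHomologicalComplexIso φ Φ).inv n,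
    exactAt_iff' _ (n - 1) n (n + 1) (by simp) (by simp), ShortComplex.moduleCat_exact_iff]
  intro x hx
  obtain ⟨y, hy⟩ := h n x hx
  refine ⟨y, hy.trans ?_⟩
  rw [id_f, CategoryTheory.Functor.map_id]
  rfl

end Fun

end P275PA
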