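import Vale.Agent.P275PA.Hv

/-! Interfaces: topological dimension bound, dual pairs of complexes. -/

open CategoryTheory TopologicalSpace CochainComplex.HomComplex P275S

noncomputable section

namespace P275PA

/-- `Z` is closed and has a map with finite fibres to `ℝ ^ n`, `n ≤ 2 d`. -/
def Dm {V : Type} [TopologicalSpace V] (Z : Set V) (d : ℤ) : Prop :=
  IsClosed Z ∧ (Z = ∅ ∨ ∃ n : ℕ, (n : ℤ) ≤ 2 * d ∧ ∃ g : V → Fin n → ℝ, Continuous g ∧
    ∀ y, (Z ∩ g ⁻¹' {y}).Finite)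

variable {k : Type} [Field k] {Y : TopCat.{0}}

/-- `F'` is the dual of the compactly supported sections of `F`, in complementary degree. -/
structure DualC (F F' : Cx k Y) (N : ℤ) where
  /-- the pairing -/
  pair : ∀ (U : Opens Y) (m q : ℤ), sec (F'.X m) U →ₗ[k] Module.Dual k (cpt (F.X q) U)
  bij : ∀ U m q, m + q = N → Function.Bijective (pair U m q)
  res : ∀ U W (h : W ≤ U) m q (T : sec (F'.X m) U) (s : sec (F.X q) ⊤) (hs : s ∈ cpt (F.X q) W),
    pair W m q (res _ h T) ⟨s, hs⟩ = pair U m q T ⟨s, cpt_mono _ h hs⟩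
  d : ∀ m m' q q', m + 1 = m' → q + 1 = q' → m' + q = N → ∃ ε : k, ε ≠ 0 ∧
    ∀ U (T : sec (F'.X m) U) (s : cpt (F.X q) U), pair U m' q (app (F'.d m m') U T) s =
      ε * pair U m q' T ⟨app (F.d q q') ⊤ s, app_mem_cpt _ s.2⟩

/-- `z'` is the transpose of `z`, up to nonzero scalars. -/
def DualC.Adj {F F' : Cx k Y} {N : ℤ} (P : DualC F F' N) {n : ℤ} (z : Cocycle F F n)
    (z' : Cocycle F' F' n) : Prop :=
  ∀ m m' q q' (hm : m + n = m') (hq : q + n = q'), m' + q = N →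
    ∀ U (T : sec (F'.X m) U) (s : cpt (F.X q) U), ∃ ε : k, ε ≠ 0 ∧
      P.pair U m' q (app (z'.1.v m m' hm) U T) s =
        ε * P.pair U m q' T ⟨app (z.1.v q q' hq) ⊤ s, app_mem_cpt _ s.2⟩

/-- Poincare duality data on a space: every degree two endomorphism of the injective resolution is
realised on a soft resolution and, by transposition, on its dual, a flabby resolution. -/
def PDual (k : Type) [Field k] (Y : TopCat.{0}) (N : ℤ) : Prop :=
  ∃ (F F' : Cx k Y) (P : DualC F F' N) (ρ : F ⟶ I k Y) (σ : F' ⟶ I k Y),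
    SoftC F ∧ FlqC F' ∧ QuasiIso ρ ∧ QuasiIso σ ∧
    ∀ α ∈ KG.deg k (KG.of (I k Y)) (KG.of (I k Y)) 2,
      ∃ (z : Cocycle F F 2) (z' : Cocycle F' F' 2), P.Adj z z' ∧
        KG.mk k z ≫ KG.hom k ρ = KG.hom k ρ ≫ α ∧ KG.mk k z' ≫ KG.hom k σ = KG.hom k σ ≫ α

end P275PA
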