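import Vale.Agent.P275PA.Wt
import Vale.Agent.P275PV.Lit
import Vale.Agent.P275ZA.Dm

/-! The abstract part of the proof: from the operator, the support estimate and curious Lefschetz
to the equality of the two filtrations. -/

open scoped Manifold ContDiff
open CategoryTheory TopologicalSpace CochainComplex CochainComplex.HomComplex P275S P275JM
open Set HomologicalComplex Limits Vale.Agent.P275Z Vale.Agent.P275ST Vale.Agent.P275ZA
open Vale.Agent.P272.K (Cm)

noncomputable section

namespace P275PA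

/-- An open subset of a complex manifold is a complex manifold. -/
theorem exists_mf {E U M : Type} [NormedAddCommGroup E] [NormedSpace ℂ E] [TopologicalSpace U]
    [TopologicalSpace M] [ChartedSpace E M] [IsManifold 𝓘(ℂ, E) ω M] {j : U → M}
    (hj : Topology.IsOpenEmbedding j) : ∃ _ : ChartedSpace E U, IsManifold 𝓘(ℂ, E) ω U := by
  cases isEmpty_or_nonempty U
  · exact ⟨ChartedSpace.empty E U, inferInstance⟩
  let J := hj.toOpenPartialHomeomorph j
  let c : ChartedSpace E U :=
    { atlas := (fun e => J.trans e) '' atlas E M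
      chartAt := fun x => J.trans (chartAt E (j x))
      mem_chart_source := fun x => ⟨trivial, mem_chart_source E (j x)⟩
      chart_mem_atlas := fun x => ⟨_, chart_mem_atlas E (j x), rfl⟩ }
  refine ⟨c, { compatible := ?_ }⟩
  rintro _ _ ⟨e, he, rfl⟩ ⟨e', he', rfl⟩
  let G := contDiffGroupoid ω 𝓘(ℂ, E)
  refine G.mem_of_eqOnSource (G.compatible_of_mem_maximalAtlas (G.subset_maximalAtlas he)
    (restr_mem_maximalAtlas G (G.subset_maximalAtlas he') J.open_target)) ?_
  rw [OpenPartialHomeomorph.trans_symm_eq_symm_trans_symm, OpenPartialHomeomorph.trans_assoc,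
    ← J.symm.trans_assoc, ← OpenPartialHomeomorph.ofSet_trans _ J.open_target]
  exact OpenPartialHomeomorph.EqOnSource.trans' (Setoid.refl _)
    (OpenPartialHomeomorph.EqOnSource.trans' J.symm_trans_self (Setoid.refl _))

/-- Poincare duality for complex manifolds. -/
def PD : Prop := ∀ (d : ℕ) (M : Type) [TopologicalSpace M] [ChartedSpace (Cm d) M] [T2Space M]
  [IsManifold 𝓘(ℂ, Cm d) ω M] [SecondCountableTopology M], PDual ℂ (TopCat.of M) (2 * d)

theorem nice_TX {g n : ℕ} {d : ℤ} (K : Cpt g n d) : Nice (TX g n d) :=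
  ⟨K.emb.locallyCompactSpace, K.emb.isEmbedding.t2Space,
    K.emb.isEmbedding.secondCountableTopology⟩

theorem pdual_TX (hP : PD) {g n : ℕ} {d : ℤ} (K : Cpt g n d) :
    PDual ℂ (TX g n d) (4 * dimR g n) := by
  obtain ⟨_, _⟩ := exists_mf (E := Cm (2 * dimR g n)) K.emb
  have : T2Space (XB g n d) := (nice_TX K).t2
  have : SecondCountableTopology (XB g n d) := (nice_TX K).sc
  have h := hP (2 * dimR g n) (XB g n d)
  convert h using 1
  push_cast
  ring

theorem pabs_of (hP : PD) : PABS := by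
  intro g n d V _ _ _ _ _ _ _ h e D ⟨K₀⟩ hh ⟨he, hD, γ, hγ, hb⟩ hS hK i
  have := nice_TX K₀
  have := nice (V := V)
  let f : TX g n d ⟶ TopCat.of V := TopCat.ofHom h
  have hN : mulK f e ^ ((dimR g n : ℤ).toNat + 1) = 0 := by
    rw [← map_pow, nil K₀.hom he (hK K₀).1.1, map_zero]
  have hm := Mor.of_bracket hγ hN hb
  generalize (dimR g n : ℤ).toNat + 1 = N at hN hm
  have hD' : (-2 / γ) • D ∈ KG.deg ℂ _ _ (-2) := Submodule.smul_mem _ _ hD
  have hL : ∀ K : Cpt g n d, Low K (glob f ((-2 / γ) • D)) := fun K a v hv => by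
    rw [map_smul]
    exact Submodule.smul_mem _ _ ((hK K).2 a v hv)
  generalize (-2 / γ) • (mulK f e * D - D * mulK f e) = H at hm
  generalize (-2 / γ) • D = D at hm hD' hL
  have he' : mulK f e ∈ KG.deg ℂ _ _ 2 := mulP_mem he
  have hs := hm.spec (k := ℂ)
  obtain ⟨p, hp, ⟨hpp⟩⟩ := exists_rep (ple_mem (deg0 ℂ _) (H_mem_deg hm he' hD') N (i - dimR g n))
    (hs.ple_mul_ple _)
  have hJ := (injC_I ℂ (TX g n d)).push f
  have : ((pushC ℂ f).obj (I ℂ (TX g n d))).IsLE (2 * dimR g n + N) := by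
    rw [CochainComplex.isLE_iff]
    refine fun m hm => (P275S.exactAt_iff _ m).2 fun x => (killF_stk (𝟙 _) x m).1
      ((killF_iff _ _ m).2 fun v hv => ?_)
    obtain ⟨Z, hZ, ho⟩ := hS (2 * dimR g n)
    obtain ⟨u, -, rfl⟩ := ho x (by rw [zarLE_neg (by omega) hZ]; exact id) N m (by omega) v hv
    rw [← map_pow, hN, map_zero, LinearMap.zero_apply, map_zero]
  obtain ⟨h1, h2⟩ := P275PV.perv_lit (𝒵 := fun d Z => ZarLE (V := V) Z d) (c := i + dimR g n)
    (fun _ _ h => (dm h).1) zarLE_empty (fun _ _ => zarLE_neg) hJ (2 * dimR g n + N) p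
    (by rw [← Functor.map_comp, DerivedCategory.Q_map_eq_of_homotopy _ hpp])
    (fun m => by
      obtain ⟨Z, hZ, ho⟩ := hS (dimR g n - 1 - i + m)
      refine ⟨Z, by convert hZ using 1; ring, fun x hx => (killF_stk p x m).1
        ((killF_iff _ p m).2 fun v hv => ?_)⟩
      rw [hp, map_ple]
      exact (gd_act _ he' hD').ple_zero_of_onto (hm.map (act (Stk ℂ x) _)) (ho x hx) (by omega) hv)
    (fun a Z hZ m hm' => zeroAt_gamS_of_killF _ Z m fun U => (killF_iff _ _ m).2 fun v hv => by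
      have hi := intoF_gsz (pdual_TX hP K₀) (h := f) hh he hm hD' (r := 2 * dimR g n)
        (fun c => (hS c).imp fun Z hZ => ⟨dm hZ.1, hZ.2⟩) U (dm hZ)
      have e1 : KG.hom ℂ (𝟙 _ - p) = (1 - ple ℂ H N (i - dimR g n) : End (KK f)) := by
        rw [KG.hom_sub, hp]
        rfl
      rw [e1, map_sub, map_one, map_ple]
      exact (gd_act _ he' hD').one_sub_ple_zero_of_into (hm.map (act (GsZ ℂ U Z) _)) hi
        (by omega) hv)
  refine ⟨h1, fun A u hu K m c => ⟨(h2 A u hu _ (clsK f c)).trans ?_, ?_⟩⟩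
  · have hF := (hK K).1.1
    rw [← glob_mulK f] at hF
    rw [clsK_comp_iff, hp, ← Lef.mem_iff_map (glob f) hm hF (hL K), add_sub_cancel, cl_mem_Wt]
  · rw [← cl_mem_Wt, ← cl_mem_Wt, (hK K).1.2]

end P275PA
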