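import Vale.Agent.P275PA.Tr

/-! Abstract duality: surjectivity with compact supports gives injectivity on local cohomology. -/

open CategoryTheory TopologicalSpace CochainComplex CochainComplex.HomComplex P275S P275JM P275CL
open Set HomologicalComplex Limits

noncomputable section

namespace P275PA

variable {k : Type} [Field k] {X Y : TopCat.{0}}

/-- Sections over `U` with support in `Z`. -/
def GsZ (k : Type) [Field k] (U : Opens Y) (Z : Set Y) : Sh k Y ⥤ ModuleCat.{0} k where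
  obj F := ModuleCat.of k (suppIn F Z U)
  map φ := ModuleCat.ofHom ((app φ U).restrict fun s hs => (supp_app φ s).trans hs)

instance (U : Opens Y) (Z : Set Y) : (GsZ k U Z).Additive where

instance (U : Opens Y) (Z : Set Y) : (GsZ k U Z).Linear k where
  map_smul _ _ := rfl

theorem gsz_val {F G : Sh k Y} (φ : F ⟶ G) {U : Opens Y} {Z : Set Y} (s : suppIn F Z U) :
    (((GsZ k U Z).map φ).hom s : suppIn G Z U).1 = app φ U s.1 := rfl

variable {F F' G : Cx k Y} {N : ℤ}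

theorem killF_gsz (p : F ⟶ G) (U : Opens Y) (Z : Set Y) (n : ℤ) :
    KillF (GsZ k U Z) p n ↔ ∀ s : sec (F.X n) U, supp s ⊆ Z → app (F.d n (n + 1)) U s = 0 →
      ∃ t : sec (G.X (n - 1)) U, supp t ⊆ Z ∧ app (G.d (n - 1) n) U t = app (p.f n) U s := by
  constructor
  · intro h s hs hd
    obtain ⟨y, hy⟩ := h (⟨s, hs⟩ : suppIn _ Z U) (Subtype.ext hd)
    exact ⟨y.1, y.2, congrArg Subtype.val hy⟩
  · intro h x hx
    obtain ⟨t, ht, ht'⟩ := h x.1 x.2 (congrArg Subtype.val hx)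
    exact ⟨(⟨t, ht⟩ : suppIn _ Z U), Subtype.ext ht'⟩

theorem zeroAt_gamS_of_killF (p : F ⟶ G) (Z : Set Y) (n : ℤ)
    (h : ∀ U, KillF (GsZ k U Z) p n) (x : Y) : ZeroAt ((mapC (GamS k Z)).map p) n x := by
  intro U hx s hs
  obtain ⟨y, hy⟩ := h U s hs
  exact ⟨U, le_rfl, hx, y, by rw [res_self]; exact hy⟩

theorem qis_gsz [Nice Y] (φ : F ⟶ G) [QuasiIso φ] (hc : FlqC (mappingCone φ))
    (U : Opens Y) {Z : Set Y} (hZ : IsClosed Z) : QuasiIso ((mapC (GsZ k U Z)).map φ) :=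
  qis_of_killF _ φ fun n => (killF_gsz _ U Z n).2 fun s hs hd =>
    zero_supp hc (idemId _) hZ U (fun x _ m _ =>
      (P275S.exactAt_iff _ m).1 ((quasiIso_iff_cone φ).1 inferInstance m) x) s hs hd

theorem qis_gcz [Nice Y] (φ : F ⟶ G) [QuasiIso φ] (hc : SoftC (mappingCone φ))
    (U : Opens Y) {Z : Set Y} (hZ : IsClosed Z) : QuasiIso ((mapC (GcZ k U Z)).map φ) :=
  qis_of_killF _ φ fun n => (killF_gcz _ U Z n).2 fun _ hs hd =>
    zero_gamc_rel hc (idemId _) U hZ (fun x _ _ m _ =>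
      (P275S.exactAt_iff _ m).1 ((quasiIso_iff_cone φ).1 inferInstance m) x) hs hd

namespace DualC

variable (P : DualC F F' N)

theorem adj_pow {z : Cocycle F F 2} {z' : Cocycle F' F' 2} (hz : P.Adj z z') (j : ℕ) (n : ℤ)
    (hn : n = 2 * j) : ∃ (w : Cocycle F F n) (w' : Cocycle F' F' n), P.Adj w w' ∧
      emk k w = emk k z ^ j ∧ emk k w' = emk k z' ^ j := by
  induction j generalizing n with
  | zero =>
    obtain rfl : n = 0 := by simpa using hn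
    refine ⟨Cocycle.ofHom (𝟙 _), Cocycle.ofHom (𝟙 _), ?_, rfl, rfl⟩
    intro m m' q q' hm hq _ U T s
    obtain rfl : m = m' := by omega
    obtain rfl : q = q' := by omega
    exact ⟨1, one_ne_zero, by simp⟩
  | succ j ih =>
    obtain ⟨w, w', ha, h1, h2⟩ := ih (2 * j) rfl
    refine ⟨zcomp z w (by push_cast at hn; omega), zcomp w' z' (by push_cast at hn; omega), ?_,
      by rw [pow_succ, ← h1]; exact (KG.mk_comp k _ _ _).symm,
      by rw [pow_succ', ← h2]; exact (KG.mk_comp k _ _ _).symm⟩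
    intro m m' q q' hm hq hN U T s
    push_cast at hn
    obtain ⟨ε, hε, e1⟩ := hz (m + 2 * j) m' q (q + 2) (by omega) rfl hN U
      (app (w'.1.v m (m + 2 * j) rfl) U T) s
    obtain ⟨ε', hε', e2⟩ := ha m (m + 2 * j) (q + 2) q' rfl (by omega) (by omega) U T
      ⟨app (z.1.v q (q + 2) rfl) ⊤ s, app_mem_cpt _ s.2⟩
    refine ⟨ε * ε', mul_ne_zero hε hε', ?_⟩
    rw [zcomp_coe, Cochain.comp_v _ _ _ m (m + 2 * j) m' rfl (by omega), app_comp, e1, e2,
      mul_assoc]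
    congr 4

variable [Nice Y] {U : Opens Y} {Z : Set Y}

theorem pair_eq_zero (hZ : IsClosed Z) {m q : ℤ} {T : sec (F'.X m) U} (hT : supp T ⊆ Z)
    {s : cpt (F.X q) U} (hs : s.1 ∈ Nv (F.X q) Z) : P.pair U m q T s = 0 := by
  let W : Opens Y := U ⊓ ⟨Zᶜ, hZ.isOpen_compl⟩
  have h0 : P275S.res _ (inf_le_left : W ≤ U) T = 0 :=
    (res_eq_zero_iff _ T).2 (Set.disjoint_left.2 fun x hx e => e.2 (hT hx))
  rw [← P.res U W inf_le_left m q T s.1 ((mem_cpt_diff rfl).2 ⟨s.2, hs⟩), h0, map_zero,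
    LinearMap.zero_apply]

theorem supp_subset (hZ : IsClosed Z) {m q : ℤ} (hN : m + q = N) {T : sec (F'.X m) U}
    (h : ∀ s : cpt (F.X q) U, s.1 ∈ Nv (F.X q) Z → P.pair U m q T s = 0) : supp T ⊆ Z := by
  let W : Opens Y := U ⊓ ⟨Zᶜ, hZ.isOpen_compl⟩
  have h0 : P275S.res _ (inf_le_left : W ≤ U) T = 0 := by
    refine (injective_iff_map_eq_zero _).1 (P.bij W m q hN).1 _ (LinearMap.ext fun s => ?_)
    exact (P.res U W inf_le_left m q T s.1 s.2).trans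
      (h _ ((mem_cpt_diff (U := U) (Z := Z) rfl).1 s.2).2)
  intro x hx
  by_contra e
  exact Set.disjoint_left.1 ((res_eq_zero_iff _ T).1 h0) hx ⟨hx.1, e⟩

/-- A section with support in `Z` that kills the relative cocycles is a coboundary. -/
theorem exists_prim (hZ : IsClosed Z) {m q : ℤ} (hN : m + q = N) {T : sec (F'.X m) U}
    (h : ∀ s : cpt (F.X q) U, app (F.d q (q + 1)) ⊤ s ∈ Nv _ Z → P.pair U m q T s = 0) :
    ∃ T' : sec (F'.X (m - 1)) U, supp T' ⊆ Z ∧ app (F'.d (m - 1) m) U T' = T := by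
  let D : cpt (F.X q) U →ₗ[k] (GcZ k U Z).obj (F.X (q + 1)) :=
    ((GcZ k U Z).map (F.d q (q + 1))).hom ∘ₗ gcz Z
  have h1 : P.pair U m q T ∈ LinearMap.range D.dualMap := by
    rw [LinearMap.range_dualMap_eq_dualAnnihilator_ker, Submodule.mem_dualAnnihilator]
    intro s hs
    exact h s ((gcz_eq_zero ⟨_, app_mem_cpt _ s.2⟩).1 hs)
  obtain ⟨ψ, hψ⟩ := h1
  obtain ⟨ε, hε, hd⟩ := P.d (m - 1) m q (q + 1) (by omega) rfl hN
  obtain ⟨T', hT'⟩ := (P.bij U (m - 1) (q + 1) (by omega)).2 (ε⁻¹ • ψ ∘ₗ gcz Z)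
  refine ⟨T', P.supp_subset hZ (q := q + 1) (by omega) fun s hs => ?_,
    (P.bij U m q hN).1 (LinearMap.ext fun s => ?_)⟩
  · rw [hT', LinearMap.smul_apply, LinearMap.comp_apply, (gcz_eq_zero s).2 hs, map_zero, smul_zero]
  · rw [hd, hT', ← hψ, LinearMap.smul_apply, smul_eq_mul, mul_inv_cancel_left₀ hε]
    rfl

theorem intoF (hZ : IsClosed Z) {z : Cocycle F F 2} {z' : Cocycle F' F' 2} (hz : P.Adj z z')
    {c : ℤ} (h : OntoF (GcZ k U Z) (emk k z) c) :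
    IntoF (GsZ k U Z) (emk k z') (N - c) := by
  intro j m hj v hv h0
  obtain ⟨w, w', ha, h1, h2⟩ := P.adj_pow hz j (2 * j) rfl
  obtain ⟨T, hT, rfl⟩ := exists_elF _ hv
  rw [← map_pow, ← h2, act_emk_elF _ _ rfl] at h0
  obtain ⟨S, hS⟩ := (elF_eq_zero_iff _ _ _).1 h0
  have hS' : app (F'.d (m + 2 * j - 1) (m + 2 * j)) U S.1 = app (w'.1.v m _ rfl) U T.1 :=
    congrArg Subtype.val hS
  have hT' : app (F'.d m (m + 1)) U T.1 = 0 := congrArg Subtype.val hT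
  obtain ⟨T', h3, h4⟩ := P.exists_prim hZ (q := N - m) (T := T.1) (by omega) fun s hs => by
    have hs' : ((GcZ k U Z).map (F.d (N - m) (N - m + 1))).hom (gcz Z s) = 0 :=
      (gcz_eq_zero ⟨_, app_mem_cpt _ s.2⟩).2 hs
    obtain ⟨u, hu, hu'⟩ := h j (N - m) (by omega) _ (elF_mem _ _ hs')
    obtain ⟨y, hy, rfl⟩ := exists_elF _ hu
    obtain ⟨y, rfl⟩ := gcz_surj y
    rw [← map_pow, ← h1, act_emk_elF _ _ (sub_add_cancel _ _)] at hu'
    obtain ⟨b, hb⟩ := (elF_eq_iff _ _ _ _ _).1 hu'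
    obtain ⟨b, rfl⟩ := gcz_surj b
    have hy' : app (F.d (N - m - 2 * j) (N - m - 2 * j + 1)) ⊤ y.1 ∈ Nv _ Z :=
      (gcz_eq_zero ⟨_, app_mem_cpt _ y.2⟩).1 hy
    let db : cpt (F.X (N - m)) U := ⟨app (F.d (N - m - 1) (N - m)) ⊤ b, app_mem_cpt _ b.2⟩
    let wy : cpt (F.X (N - m)) U := ⟨app (w.1.v _ _ (sub_add_cancel _ _)) ⊤ y, app_mem_cpt _ y.2⟩
    have hb' : (db - (wy - s)).1 ∈ Nv _ Z := (gcz_eq db (wy - s)).1 (by rw [map_sub]; exact hb)
    have e1 := P.pair_eq_zero hZ T.2 hb'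
    obtain ⟨ε₁, hε₁, d1⟩ := P.d m (m + 1) (N - m - 1) (N - m) rfl (by omega) (by omega)
    have e2 := d1 U T.1 b
    rw [hT', map_zero, LinearMap.zero_apply, eq_comm, mul_eq_zero, or_iff_right hε₁] at e2
    obtain ⟨ε₂, hε₂, e3⟩ := ha m (m + 2 * j) (N - m - 2 * j) (N - m) rfl (sub_add_cancel _ _)
      (by omega) U T.1 y
    obtain ⟨ε₃, -, d3⟩ := P.d (m + 2 * j - 1) (m + 2 * j) (N - m - 2 * j) (N - m - 2 * j + 1)
      (by omega) rfl (by omega)
    rw [← hS', d3, P.pair_eq_zero hZ S.2 hy', mul_zero, eq_comm, mul_eq_zero,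
      or_iff_right hε₂] at e3
    rw [map_sub, map_sub, e2, e3] at e1
    simpa using e1
  exact (elF_eq_zero_iff _ T hT).2 ⟨(⟨T', h3⟩ : suppIn _ Z U), Subtype.ext h4⟩

end DualC

end P275PA
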