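import Vale.Agent.P275JM.Filt
import Vale.Agent.P275CL.Lin

/-! Graded Lefschetz modules: surjectivity and injectivity ranges of the powers of `e` versus the
centres of the strings. -/

namespace P275PA

open P275JM P275CL

variable {k V : Type*} [Field k] [AddCommGroup V] [Module k V]

/-- `e ^ j` is injective on degree `m` whenever `m + j ≤ c`. -/
def Into (G : ℤ → Submodule k V) (e : Module.End k V) (c : ℤ) : Prop :=
  ∀ (j : ℕ) (m : ℤ), m + j ≤ c → ∀ v ∈ G m, (e ^ j) v = 0 → v = 0

theorem Into.mono {G : ℤ → Submodule k V} {e : Module.End k V} {c c' : ℤ} (h : Into G e c)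
    (hc : c' ≤ c) : Into G e c' := fun j m hj v hv => h j m (by omega) v hv

/-- `e` has degree `2` and `D` has degree `-2`. -/
structure Gd (G : ℤ → Submodule k V) (e D : Module.End k V) : Prop where
  he : ∀ m, ∀ v ∈ G m, e v ∈ G (m + 2)
  hD : ∀ m, ∀ v ∈ G m, D v ∈ G (m + -2)

/-- An operator of degree `s` on the product of the graded pieces. -/
def shiftOp (G : ℤ → Submodule k V) (A : Module.End k V) (s : ℤ)
    (hA : ∀ m, ∀ v ∈ G m, A v ∈ G (m + s)) : Module.End k (Submodule.pi Set.univ G) :=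
  LinearMap.restrict (LinearMap.pi fun m => A ∘ₗ LinearMap.proj (m - s)) fun f hf m _ => by
    have := hA _ _ (hf (m - s) trivial)
    rwa [sub_add_cancel] at this

theorem shiftOp_apply {G : ℤ → Submodule k V} {A : Module.End k V} {s : ℤ} (hA)
    (f : Submodule.pi Set.univ G) (m : ℤ) : (shiftOp G A s hA f).1 m = A (f.1 (m - s)) := rfl

theorem shiftOp_pow {G : ℤ → Submodule k V} {A : Module.End k V} {s : ℤ} (hA) (j : ℕ)
    (f : Submodule.pi Set.univ G) (m : ℤ) :
    ((shiftOp G A s hA ^ j) f).1 m = (A ^ j) (f.1 (m - s * j)) := by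
  induction j generalizing m with
  | zero => simp
  | succ j ih =>
    rw [pow_succ', pow_succ', Module.End.mul_apply, Module.End.mul_apply, shiftOp_apply, ih]
    congr 3; push_cast; ring

namespace Gd

variable {G : ℤ → Submodule k V} {e D H : Module.End k V} {N : ℕ} (g : Gd G e D) (h : Mor e D H N)
include g h

theorem hH (m : ℤ) (v : V) (hv : v ∈ G m) : H v ∈ G m := by
  rw [eq_sub_of_add_eq' (h.hD' v).symm]
  have h1 := g.he _ _ (g.hD _ _ hv)
  have h2 := g.hD _ _ (g.he _ _ hv)
  rw [add_assoc] at h1 h2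
  exact Submodule.sub_mem _ (by simpa using h1) (by simpa using h2)

theorem aeval_mem (p : Polynomial k) {m : ℤ} {v : V} (hv : v ∈ G m) :
    Polynomial.aeval H p v ∈ G m := by
  have := aeval_intertwine_lin (T := (G m).subtype) (H := H.restrict (g.hH h m)) (H' := H)
    (fun _ => rfl) p ⟨v, hv⟩
  rw [Submodule.subtype_apply, Submodule.subtype_apply] at this
  rw [← this]; exact Subtype.property _

theorem pr_mem (l : ℤ) {m : ℤ} {v : V} (hv : v ∈ G m) : pr k H N l v ∈ G m := g.aeval_mem h _ hv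

theorem ple_mem (c : ℤ) {m : ℤ} {v : V} (hv : v ∈ G m) : ple k H N c v ∈ G m := by
  rw [ple, LinearMap.sum_apply]
  exact Submodule.sum_mem _ fun l _ => g.pr_mem h l hv

variable [CharZero k]

/-- Homogeneous Lefschetz surjectivity. -/
theorem surj (j : ℕ) {m : ℤ} {v : V} (hv : v ∈ G m) (hw : H v = (j : k) • v) :
    ∃ w ∈ G (m - 2 * j), H w = -(j : k) • w ∧ (e ^ j) w = v := by
  have hH0 : ∀ m, ∀ v ∈ G m, H v ∈ G (m + 0) := by simpa using g.hH h
  have h' : Mor (shiftOp G e 2 g.he) (shiftOp G D (-2) g.hD) (shiftOp G H 0 hH0) N := by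
    refine ⟨?_, ?_, ?_⟩
    · ext f m
      simp [shiftOp_apply, h.hD']
    · ext f m
      simp [shiftOp_apply, h.he', two_mul, two_smul]
    · ext f m
      simp [shiftOp_pow, h.nil]
  obtain ⟨w, h1, h2⟩ := h'.surj j (v := ⟨Pi.single m v, fun n _ => by
      by_cases hn : n = m
      · subst hn; simpa using hv
      · simp [hn]⟩) (by
    ext n
    by_cases hn : n = m
    · subst hn; simpa [shiftOp_apply] using hw
    · simp [shiftOp_apply, hn])
  refine ⟨w.1 (m - 2 * j), w.2 _ trivial, ?_, ?_⟩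
  · simpa [shiftOp_apply] using congrArg (fun f => f.1 (m - 2 * j)) h1
  · simpa [shiftOp_pow] using congrArg (fun f => f.1 m) h2

omit g [CharZero k] in
theorem e_pow_eig (a : ℕ) {l : ℤ} {v : V} (hv : H v = (l : k) • v) :
    H ((e ^ a) v) = ((l + 2 * a : ℤ) : k) • (e ^ a) v := by
  rw [H_pow h.he', hv, map_smul]; push_cast; module

theorem zero_of_onto_aux {c d : ℤ} (ho : Onto G e c) (hd : c < d) (t : ℕ) {v : V}
    (hv : v ∈ G (d + t)) (hw : H v = ((t : ℤ) : k) • v) : v = 0 := by
  by_cases ht : N ≤ t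
  · exact h.eig_zero_of_le (l := t) (by simpa using ht) hw
  · have hs := h.spec (k := k)
    obtain ⟨u, hu, hu'⟩ := ho (t + 1) (d + t) (by push_cast; omega) v hv
    have h1 : H (pr k H N (-((t + 2 : ℕ) : ℤ)) u) =
        ((-((t + 2 : ℕ) : ℤ) : ℤ) : k) • pr k H N (-((t + 2 : ℕ) : ℤ)) u := hs.H_smul_pr _ u
    have h2 : (e ^ (t + 1)) (pr k H N (-((t + 2 : ℕ) : ℤ)) u) = v := by
      rw [← Module.End.mul_apply, ← h.pr_mul_pow, Module.End.mul_apply, hu']
      have : -((t + 2 : ℕ) : ℤ) + 2 * ((t + 1 : ℕ) : ℤ) = t := by push_cast; ring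
      rw [this]
      exact hs.pr_smul_self (V := V) hw
    have h3 := zero_of_onto_aux ho hd (t + 2) (v := (e ^ (t + 2)) (pr k H N (-((t + 2 : ℕ) : ℤ)) u))
      (by convert pow_mem g.he (t + 2) _ _ (g.pr_mem h _ hu) using 2; push_cast; ring)
      (by rw [e_pow_eig h _ h1]; congr 2; ring)
    rw [← h2, h.inj (j := t + 2) le_rfl (by simpa using h1) h3, map_zero]
termination_by N - t
decreasing_by omega

/-- If the powers of `e` are onto above `c`, all strings have centre at most `c`. -/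
theorem zero_of_onto {c m l : ℤ} (ho : Onto G e c) (hd : c < m - l) {v : V} (hv : v ∈ G m)
    (hw : H v = (l : k) • v) : v = 0 := by
  obtain ⟨t, rfl | rfl⟩ := l.eq_nat_or_neg
  · exact g.zero_of_onto_aux h ho hd t (by simpa using hv) hw
  · refine h.inj (j := t) le_rfl (by simpa using hw) (g.zero_of_onto_aux h ho hd t ?_ ?_)
    · convert pow_mem g.he t _ _ hv using 2; ring
    · rw [e_pow_eig h _ hw]; congr 2; ring

theorem pr_zero_of_onto {c m l : ℤ} (ho : Onto G e c) (hd : c < m - l) {v : V} (hv : v ∈ G m) :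
    pr k H N l v = 0 :=
  g.zero_of_onto h ho hd (g.pr_mem h l hv) ((h.spec (k := k)).H_smul_pr l v)

theorem ple_zero_of_onto {c m l : ℤ} (ho : Onto G e c) (hd : c < m - l) {v : V} (hv : v ∈ G m) :
    ple k H N l v = 0 := by
  rw [ple, LinearMap.sum_apply]
  refine Finset.sum_eq_zero fun i hi => g.pr_zero_of_onto h ho ?_ hv
  have := (Finset.mem_filter.1 hi).2
  omega

/-- If all strings have centre at most `c`, the powers of `e` are onto above `c`. -/
theorem onto_of_zero {c : ℤ} (hz : ∀ m l, c < m - l → ∀ v ∈ G m, pr k H N l v = 0) :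
    Onto G e c := by
  intro j m hj v hv
  have hs := h.spec (k := k)
  have : ∀ l : ℤ, ∃ u ∈ G (m - 2 * j), (e ^ j) u = pr k H N l v := by
    intro l
    by_cases hl : c < m - l
    · exact ⟨0, Submodule.zero_mem _, by rw [hz m l hl v hv, map_zero]⟩
    · obtain ⟨a, rfl⟩ : ∃ a : ℕ, l = ((j + a : ℕ) : ℤ) := ⟨(l - j).toNat, by push_cast; omega⟩
      obtain ⟨w, hw, -, hw'⟩ := g.surj h (j + a) (g.pr_mem h ((j + a : ℕ) : ℤ) hv)
        (by simpa using hs.H_smul_pr ((j + a : ℕ) : ℤ) v)
      refine ⟨(e ^ a) w, ?_, by rw [← hw', pow_add, Module.End.mul_apply]⟩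
      convert pow_mem g.he a _ _ hw using 2; push_cast; ring
  choose u hu hu' using this
  refine ⟨∑ l ∈ Finset.Ioo (-(N : ℤ)) N, u l, Submodule.sum_mem _ fun l _ => hu l, ?_⟩
  rw [map_sum, Finset.sum_congr rfl fun l _ => hu' l]
  exact hs.sum_pr_smul v

theorem zero_of_into_aux {c d : ℤ} (hi : Into G e c) (hd : d < c) (t : ℕ) {v : V}
    (hv : v ∈ G (d - t)) (hw : H v = ((-(t : ℤ) : ℤ) : k) • v) : v = 0 := by
  by_cases ht : N ≤ t
  · exact h.eig_zero_of_le (l := -t) (by simpa using ht) hw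
  · refine hi (t + 1) _ (by push_cast; omega) v hv ?_
    obtain ⟨w, h1, h2, h3⟩ := g.surj h (t + 2) (pow_mem g.he (t + 1) _ _ hv)
      (by rw [e_pow_eig h _ hw]; congr 1; push_cast; ring)
    rw [← h3, zero_of_into_aux hi hd (t + 2) (v := w)
      (by convert h1 using 2; push_cast; ring) (by simpa using h2), map_zero]
termination_by N - t
decreasing_by omega

/-- If the powers of `e` are injective below `c`, all strings have centre at least `c`. -/
theorem zero_of_into {c m l : ℤ} (hi : Into G e c) (hd : m - l < c) {v : V} (hv : v ∈ G m)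
    (hw : H v = (l : k) • v) : v = 0 := by
  obtain ⟨t, rfl | rfl⟩ := l.eq_nat_or_neg
  · obtain ⟨w, h1, h2, h3⟩ := g.surj h t hv (by simpa using hw)
    rw [← h3, g.zero_of_into_aux h hi hd t (v := w) (by convert h1 using 2; ring)
      (by simpa using h2), map_zero]
  · exact g.zero_of_into_aux h hi hd t (by simpa using hv) hw

theorem pr_zero_of_into {c m l : ℤ} (hi : Into G e c) (hd : m - l < c) {v : V} (hv : v ∈ G m) :
    pr k H N l v = 0 :=
  g.zero_of_into h hi hd (g.pr_mem h l hv) ((h.spec (k := k)).H_smul_pr l v)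

theorem one_sub_ple_zero_of_into {c m l : ℤ} (hi : Into G e c) (hd : m - l ≤ c) {v : V}
    (hv : v ∈ G m) : (1 - ple k H N l) v = 0 := by
  rw [(h.spec (k := k)).one_sub_ple, LinearMap.sum_apply]
  refine Finset.sum_eq_zero fun i hi' => g.pr_zero_of_into h hi ?_ hv
  have := (Finset.mem_filter.1 hi').2
  omega

omit g in
/-- If all strings have centre at least `c`, the powers of `e` are injective below `c`. -/
theorem into_of_zero {c : ℤ} (hz : ∀ m l, m - l < c → ∀ v ∈ G m, pr k H N l v = 0) :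
    Into G e c := by
  intro j m hj v hv h0
  have hs := h.spec (k := k)
  rw [← hs.sum_pr_smul v]
  refine Finset.sum_eq_zero fun l _ => ?_
  by_cases hl : m - l < c
  · exact hz m l hl v hv
  · obtain ⟨a, rfl⟩ : ∃ a : ℕ, l = -((j + a : ℕ) : ℤ) := ⟨(-l - j).toNat, by push_cast; omega⟩
    refine h.inj (j := j + a) (a := j) (by omega) (by simpa using hs.H_smul_pr (-((j + a : ℕ) : ℤ)) v) ?_
    change (e ^ j * pr k H N _) v = 0
    rw [← h.pr_mul_pow, Module.End.mul_apply, h0, map_zero]

end Gd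

end P275PA
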