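import Vale.Agent.P275PA.Gr
import Vale.Agent.P275S.KG

/-! Cohomology as graded morphisms out of a single object, and the action of the graded
endomorphism ring on the cohomology of any additive functor. -/

open CategoryTheory Limits CochainComplex CochainComplex.HomComplex P275S P275JM P275CL

noncomputable section

universe v u v' u'

namespace P275PA

section Act

variable (k : Type) [Field k] {D : Type u} [Category.{v} D] [Preadditive D] [Linear k D]

/-- Endomorphisms of `A` act on the morphisms into `A`. -/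
def actT (T A : D) : End A →ₐ[k] Module.End k (T ⟶ A) where
  toFun f := Linear.rightComp k T f
  map_one' := by ext x; simp
  map_mul' f g := by ext x; simp
  map_zero' := by ext x; simp
  map_add' f g := by ext x; exact Preadditive.comp_add _ _ _ x f g
  commutes' r := by
    ext x
    change x ≫ (r • 𝟙 A) = r • x
    simp

theorem actT_apply {T A : D} (f : End A) (x : T ⟶ A) : actT k T A f x = x ≫ f := rfl

variable {D' : Type u'} [Category.{v'} D'] [Preadditive D'] [Linear k D']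

/-- A linear functor on endomorphism algebras. -/
def endMap (Φ : D ⥤ D') [Φ.Additive] [Φ.Linear k] (A : D) : End A →ₐ[k] End (Φ.obj A) where
  toFun f := Φ.map f
  map_one' := Φ.map_id A
  map_mul' f g := Φ.map_comp g f
  map_zero' := Φ.map_zero _ _
  map_add' _ _ := Φ.map_add
  commutes' r := by
    change Φ.map (r • 𝟙 A) = r • 𝟙 _
    rw [Functor.map_smul, CategoryTheory.Functor.map_id]

theorem endMap_apply (Φ : D ⥤ D') [Φ.Additive] [Φ.Linear k] {A : D} (f : End A) :
    endMap k Φ A f = Φ.map f := rfl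

end Act

variable (k : Type) [Field k] {C : Type u} [Category.{v} C] [Preadditive C] [Linear k C]

/-- The degree zero endomorphisms form a subalgebra. -/
def deg0 (A : KG k C) : Subalgebra k (End A) :=
  (KG.deg k A A 0).toSubalgebra (KG.id_mem_deg A) fun _ _ hx hy =>
    KG.comp_mem_deg (add_zero 0) hy hx

variable {k}

theorem mem_deg0 {A : KG k C} {f : End A} : f ∈ deg0 k A ↔ f ∈ KG.deg k A A 0 := Iff.rfl

theorem pow_mem_deg {A : KG k C} {e : End A} {a : ℤ} (he : e ∈ KG.deg k A A a) (j : ℕ) :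
    (e ^ j : End A) ∈ KG.deg k A A (a * j) := by
  induction j with
  | zero => simpa using KG.id_mem_deg A
  | succ j ih =>
    rw [pow_succ]
    exact KG.comp_mem_deg (by push_cast; ring) he ih

theorem H_mem_deg {A : KG k C} {e D H : End A} {N : ℕ} (h : Mor e D H N)
    (he : e ∈ KG.deg k A A 2) (hD : D ∈ KG.deg k A A (-2)) : H ∈ KG.deg k A A 0 := by
  rw [← h.hD]
  exact Submodule.sub_mem _ (KG.comp_mem_deg (by norm_num) hD he)
    (KG.comp_mem_deg (by norm_num) he hD)

theorem gd_actT (T : KG k C) {A : KG k C} {e D : End A} (he : e ∈ KG.deg k A A 2)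
    (hD : D ∈ KG.deg k A A (-2)) : Gd (KG.deg k T A) (actT k T A e) (actT k T A D) :=
  ⟨fun _ _ hv => KG.comp_mem_deg rfl hv he, fun _ _ hv => KG.comp_mem_deg rfl hv hD⟩

section Single

variable [HasZeroObject C]

variable (k) in
/-- An object placed in degree zero. -/
abbrev sgl (T : C) : KG k C := KG.of ((CochainComplex.singleFunctor C 0).obj T)

variable {T : C} {L L' : CochainComplex C ℤ} {m : ℤ}

variable (k) in
/-- The class of a cocycle `T ⟶ L.X m`. -/
def clT (v : T ⟶ L.X m) (hv : v ≫ L.d m (m + 1) = 0) : sgl k T ⟶ KG.of L :=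
  KG.mk k (Cocycle.fromSingleMk v (zero_add m) (m + 1) rfl hv)

theorem clT_mem (v : T ⟶ L.X m) (hv : v ≫ L.d m (m + 1) = 0) :
    clT k v hv ∈ KG.deg k (sgl k T) (KG.of L) m := KG.mk_mem_deg _

theorem exists_clT {f : sgl k T ⟶ KG.of L} (hf : f ∈ KG.deg k (sgl k T) (KG.of L) m) :
    ∃ v hv, clT k (m := m) v hv = f := by
  obtain ⟨z, rfl⟩ := hf
  obtain ⟨v, hv, rfl⟩ := Cocycle.fromSingleMk_surjective z m (zero_add m) (m + 1) rfl
  exact ⟨v, hv, rfl⟩

theorem clT_eq_zero_iff (v : T ⟶ L.X m) (hv : v ≫ L.d m (m + 1) = 0) :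
    clT k v hv = 0 ↔ ∃ w : T ⟶ L.X (m - 1), w ≫ L.d (m - 1) m = v := by
  rw [clT, KG.mk_eq_zero_iff k _ (m - 1) (by simp),
    ← Cocycle.fromSingleMk_mem_coboundaries_iff v (zero_add m) (m + 1) rfl hv (m - 1) (by simp),
    mem_coboundaries_iff _ (m - 1) (by simp)]

theorem clT_sub (v w : T ⟶ L.X m) (hv : v ≫ L.d m (m + 1) = 0) (hw : w ≫ L.d m (m + 1) = 0) :
    clT k (v - w) (by simp [hv, hw]) = clT k v hv - clT k w hw := by
  rw [clT, Cocycle.fromSingleMk_sub, map_sub]; rfl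

theorem clT_add (v w : T ⟶ L.X m) (hv : v ≫ L.d m (m + 1) = 0) (hw : w ≫ L.d m (m + 1) = 0) :
    clT k (v + w) (by simp [hv, hw]) = clT k v hv + clT k w hw := by
  rw [clT, Cocycle.fromSingleMk_add, map_add]; rfl

theorem clT_eq_iff (v w : T ⟶ L.X m) (hv : v ≫ L.d m (m + 1) = 0) (hw : w ≫ L.d m (m + 1) = 0) :
    clT k v hv = clT k w hw ↔ ∃ y : T ⟶ L.X (m - 1), y ≫ L.d (m - 1) m = v - w := by
  rw [← sub_eq_zero, ← clT_sub, clT_eq_zero_iff]

omit [Linear k C] [HasZeroObject C] in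
theorem comp_v_d {n m' : ℤ} (z : Cocycle L L' n) (h : m + n = m') {v : T ⟶ L.X m}
    (hv : v ≫ L.d m (m + 1) = 0) : (v ≫ z.1.v m m' h) ≫ L'.d m' (m' + 1) = 0 := by
  have := Cochain.congr_v (z.δ_eq_zero (n + 1)) m (m' + 1) (by omega)
  rw [δ_v n (n + 1) rfl _ m (m' + 1) (by omega) m' (m + 1) (by omega) rfl, Cochain.zero_v] at this
  rw [Category.assoc, eq_neg_of_add_eq_zero_left this]
  simp [reassoc_of% hv]

theorem clT_comp_mk {n m' : ℤ} (z : Cocycle L L' n) (h : m + n = m') (v : T ⟶ L.X m)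
    (hv : v ≫ L.d m (m + 1) = 0) :
    clT k v hv ≫ KG.mk k z = clT k (v ≫ z.1.v m m' h) (comp_v_d z h hv) := by
  rw [clT, KG.mk_comp k h, clT]
  congr 1
  refine Cocycle.ext ((Cochain.fromSingleEquiv (zero_add m')).injective ?_)
  simp [Cochain.fromSingleEquiv, Cochain.comp_v _ _ h 0 m m' (zero_add m) h]
  erw [Category.assoc, Iso.inv_hom_id_assoc]

theorem clT_comp_hom (φ : L ⟶ L') (v : T ⟶ L.X m) (hv : v ≫ L.d m (m + 1) = 0) :
    clT k v hv ≫ KG.hom k φ = clT k (v ≫ φ.f m) (by simp [reassoc_of% hv]) := by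
  rw [KG.hom, clT_comp_mk _ (add_zero m)]
  simp

end Single

section Mod

variable (k) in
/-- The field in degree zero. -/
abbrev pt : KG k (ModuleCat.{0} k) := sgl k (ModuleCat.of k k)

variable {M M' : CochainComplex (ModuleCat.{0} k) ℤ} {m : ℤ}

/-- The map from the field defined by an element. -/
def elt {N : ModuleCat.{0} k} (x : N) : ModuleCat.of k k ⟶ N :=
  ModuleCat.ofHom (LinearMap.toSpanSingleton k N x)

theorem elt_comp {N N' : ModuleCat.{0} k} (x : N) (f : N ⟶ N') : elt x ≫ f = elt (f.hom x) := by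
  ext; simp [elt]

theorem elt_inj {N : ModuleCat.{0} k} {x y : N} (h : elt x = elt y) : x = y := by
  simpa [elt] using congrArg (fun f => ModuleCat.Hom.hom f 1) h

theorem elt_zero (N : ModuleCat.{0} k) : elt (0 : N) = 0 := by ext; simp [elt]

theorem elt_sub {N : ModuleCat.{0} k} (x y : N) : elt (x - y) = elt x - elt y := by
  ext; simp [elt]

theorem elt_surj {N : ModuleCat.{0} k} (f : ModuleCat.of k k ⟶ N) : ∃ x, elt x = f :=
  ⟨f.hom 1, by ext; simp [elt]⟩

/-- The class of a cocycle of a complex of vector spaces. -/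
def el (x : M.X m) (hx : (M.d m (m + 1)).hom x = 0) : pt k ⟶ KG.of M :=
  clT k (elt x) (by rw [elt_comp, hx, elt_zero])

theorem el_mem (x : M.X m) (hx : (M.d m (m + 1)).hom x = 0) :
    el x hx ∈ KG.deg k (pt k) (KG.of M) m := clT_mem _ _

theorem exists_el {f : pt k ⟶ KG.of M} (hf : f ∈ KG.deg k (pt k) (KG.of M) m) :
    ∃ x hx, el (m := m) x hx = f := by
  obtain ⟨v, hv, rfl⟩ := exists_clT hf
  obtain ⟨x, rfl⟩ := elt_surj v
  exact ⟨x, elt_inj (by rw [← elt_comp, hv, elt_zero]), rfl⟩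

theorem el_eq_zero_iff (x : M.X m) (hx : (M.d m (m + 1)).hom x = 0) :
    el x hx = 0 ↔ ∃ y, (M.d (m - 1) m).hom y = x := by
  rw [el, clT_eq_zero_iff]
  constructor
  · rintro ⟨w, hw⟩
    obtain ⟨y, rfl⟩ := elt_surj w
    exact ⟨y, elt_inj (by rw [← hw, elt_comp])⟩
  · rintro ⟨y, rfl⟩
    exact ⟨elt y, elt_comp _ _⟩

theorem el_sub (x y : M.X m) (hx : (M.d m (m + 1)).hom x = 0) (hy : (M.d m (m + 1)).hom y = 0) :
    el (x - y) (by rw [map_sub, hx, hy, sub_zero]) = el x hx - el y hy := by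
  rw [el, el, el, ← clT_sub]
  congr 1
  exact elt_sub x y

theorem el_eq_iff (x y : M.X m) (hx : (M.d m (m + 1)).hom x = 0)
    (hy : (M.d m (m + 1)).hom y = 0) :
    el x hx = el y hy ↔ ∃ w, (M.d (m - 1) m).hom w = x - y := by
  rw [← sub_eq_zero, ← el_sub, el_eq_zero_iff]

theorem v_d {n m' : ℤ} (z : Cocycle M M' n) (h : m + n = m') {x : M.X m}
    (hx : (M.d m (m + 1)).hom x = 0) : (M'.d m' (m' + 1)).hom ((z.1.v m m' h).hom x) = 0 :=
  elt_inj (by
    rw [← elt_comp, ← elt_comp, comp_v_d z h (by rw [elt_comp, hx, elt_zero]), elt_zero])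

theorem el_comp_mk {n m' : ℤ} (z : Cocycle M M' n) (h : m + n = m') (x : M.X m)
    (hx : (M.d m (m + 1)).hom x = 0) :
    el x hx ≫ KG.mk k z = el ((z.1.v m m' h).hom x) (v_d z h hx) := by
  rw [el, clT_comp_mk z h, el]
  congr 1
  exact elt_comp _ _

theorem f_d (φ : M ⟶ M') {x : M.X m} (hx : (M.d m (m + 1)).hom x = 0) :
    (M'.d m (m + 1)).hom ((φ.f m).hom x) = 0 := by
  have := congrArg (fun f => ModuleCat.Hom.hom f x) (φ.comm m (m + 1))
  simp only [ModuleCat.hom_comp, LinearMap.comp_apply] at this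
  rw [this, hx, map_zero]

theorem el_comp_hom (φ : M ⟶ M') (x : M.X m) (hx : (M.d m (m + 1)).hom x = 0) :
    el x hx ≫ KG.hom k φ = el ((φ.f m).hom x) (f_d φ hx) := by
  rw [el, clT_comp_hom, el]
  congr 1
  exact elt_comp _ _

/-- A chain map kills the classes of degree `m` iff it sends cocycles to coboundaries. -/
theorem kills_iff (φ : M ⟶ M') (m : ℤ) :
    (∀ f ∈ KG.deg k (pt k) (KG.of M) m, f ≫ KG.hom k φ = 0) ↔
      ∀ x : M.X m, (M.d m (m + 1)).hom x = 0 → ∃ y, (M'.d (m - 1) m).hom y = (φ.f m).hom x := by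
  constructor
  · intro h x hx
    rw [← el_eq_zero_iff _ (f_d φ hx), ← el_comp_hom φ x hx]
    exact h _ (el_mem x hx)
  · intro h f hf
    obtain ⟨x, hx, rfl⟩ := exists_el hf
    rw [el_comp_hom, el_eq_zero_iff]
    exact h x hx

end Mod

section Fun

variable (Φ : C ⥤ ModuleCat.{0} k) [Φ.Additive] [Φ.Linear k]

/-- The total cohomology of `Φ A`. -/
abbrev Hv (A : KG k C) : Type := pt k ⟶ (KG.map k Φ).obj A

/-- The degree `m` part of the total cohomology of `Φ A`. -/
abbrev Gv (A : KG k C) (m : ℤ) : Submodule k (Hv Φ A) := KG.deg k (pt k) ((KG.map k Φ).obj A) m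

/-- The action of the graded endomorphisms of `A` on the cohomology of `Φ A`. -/
def act (A : KG k C) : End A →ₐ[k] Module.End k (Hv Φ A) :=
  (actT k (pt k) _).comp (endMap k (KG.map k Φ) A)

theorem act_apply {A : KG k C} (f : End A) (x : Hv Φ A) :
    act Φ A f x = x ≫ (KG.map k Φ).map f := rfl

theorem gd_act {A : KG k C} {e D : End A} (he : e ∈ KG.deg k A A 2)
    (hD : D ∈ KG.deg k A A (-2)) : Gd (Gv Φ A) (act Φ A e) (act Φ A D) :=
  gd_actT _ (KG.map_mem_deg Φ he) (KG.map_mem_deg Φ hD)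

/-- The powers of `e` are onto above `c` on the cohomology of `Φ A`. -/
def OntoF {A : KG k C} (e : End A) (c : ℤ) : Prop := Onto (Gv Φ A) (act Φ A e) c

/-- The powers of `e` are injective below `c` on the cohomology of `Φ A`. -/
def IntoF {A : KG k C} (e : End A) (c : ℤ) : Prop := Into (Gv Φ A) (act Φ A e) c

/-- The chain map `p` kills the cohomology of degree `m` of `Φ F`. -/
def KillF {F G : CochainComplex C ℤ} (p : F ⟶ G) (m : ℤ) : Prop :=
  ∀ x : Φ.obj (F.X m), (Φ.map (F.d m (m + 1))).hom x = 0 →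
    ∃ y, (Φ.map (G.d (m - 1) m)).hom y = (Φ.map (p.f m)).hom x

theorem killF_iff {F : CochainComplex C ℤ} (p : F ⟶ F) (m : ℤ) :
    KillF Φ p m ↔ ∀ v ∈ Gv Φ (KG.of F) m, act Φ (KG.of F) (KG.hom k p) v = 0 := by
  simp only [act_apply, KG.map_hom]
  exact (kills_iff ((mapC Φ).map p) m).symm

end Fun

end P275PA
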