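import Vale.Agent.P275PA.Asm
import Vale.Agent.P275MC.Cl

/-! The abstract part of the proof, unconditionally. -/

namespace P275PA

theorem pabs : Vale.Agent.P275Z.PABS := pabs_of fun d M => Vale.Agent.P275MC.pdual d M

end P275PA
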