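import Vale.Agent.P275PA.Du
import Vale.Agent.P275S.Soft

/-! Duality data are pushed forward along proper maps; the support estimate gives the cosupport
estimate. -/

open CategoryTheory TopologicalSpace CochainComplex CochainComplex.HomComplex P275S P275JM P275CL
open Set HomologicalComplex Limits

noncomputable section

namespace P275PA

variable {k : Type} [Field k] {X Y : TopCat.{0}} {h : X ⟶ Y}

theorem mem_cpt_push (hh : IsProperMap h) {E : Sh k X} {U : Opens Y}
    (s : sec ((push k h).obj E) ⊤) :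
    s ∈ cpt ((push k h).obj E) U ↔ (show sec E ⊤ from s) ∈ cpt E ((Opens.map h).obj U) := by
  constructor
  · rintro ⟨C, hC, hU, hs⟩
    refine ⟨h ⁻¹' C, hh.isCompact_preimage hC, fun x hx => hU hx, ?_⟩
    have := (mem_Nv_push hh.isClosedMap (B := Cᶜ) s).1 (mem_Nv.2 (by rwa [compl_compl]))
    rwa [mem_Nv, preimage_compl, compl_compl] at this
  · rintro ⟨C, hC, hU, hs⟩
    refine ⟨h '' C, hC.image hh.continuous, ?_, ?_⟩
    · rintro _ ⟨x, hx, rfl⟩
      exact hU hx
    · have := (mem_Nv_push hh.isClosedMap (B := (h '' C)ᶜ) s).2 (mem_Nv.2 (by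
        rw [preimage_compl, compl_compl]
        exact hs.trans (subset_preimage_image _ _)))
      rwa [mem_Nv, compl_compl] at this

/-- Sections with compact support of a proper direct image. -/
def cptPush (hh : IsProperMap h) (E : Sh k X) (U : Opens Y) :
    cpt ((push k h).obj E) U ≃ₗ[k] cpt E ((Opens.map h).obj U) where
  toFun s := ⟨s.1, (mem_cpt_push hh s.1).1 s.2⟩
  invFun s := ⟨s.1, (mem_cpt_push hh (E := E) s.1).2 s.2⟩
  map_add' _ _ := rfl
  map_smul' _ _ := rfl
  left_inv _ := rfl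
  right_inv _ := rfl

variable {F F' : Cx k X} {N : ℤ}

/-- Proper direct image of a dual pair. -/
def DualC.push (P : DualC F F' N) (hh : IsProperMap h) :
    DualC ((pushC k h).obj F) ((pushC k h).obj F') N where
  pair U m q := (cptPush hh (F.X q) U).dualMap.toLinearMap ∘ₗ P.pair ((Opens.map h).obj U) m q
  bij U m q hN := (cptPush hh (F.X q) U).dualMap.bijective.comp (P.bij _ m q hN)
  res U W hW m q T s hs := P.res ((Opens.map h).obj U) ((Opens.map h).obj W) (fun _ hx => hW hx)
    m q T s ((mem_cpt_push hh s).1 hs)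
  d m m' q q' hm hq hN := by
    obtain ⟨ε, hε, hd⟩ := P.d m m' q q' hm hq hN
    exact ⟨ε, hε, fun U T s => hd ((Opens.map h).obj U) T (cptPush hh (F.X q) U s)⟩

theorem DualC.Adj.push {P : DualC F F' N} (hh : IsProperMap h) {n : ℤ} {z : Cocycle F F n}
    {z' : Cocycle F' F' n} (hz : P.Adj z z') :
    (P.push hh).Adj (KG.zmap (P275S.push k h) z) (KG.zmap (P275S.push k h) z') :=
  fun m m' q q' hm hq hN U T s =>
    hz m m' q q' hm hq hN ((Opens.map h).obj U) T (cptPush hh (F.X q) U s)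

variable (h) in
/-- Multiplication by a class, on the direct image. -/
def mulP (J : Cx k X) : End (KG.of J : KG k (Sh k X)) →ₐ[k]
    End (KG.of ((pushC k h).obj J) : KG k (Sh k Y)) :=
  endMap k (KG.map k (push k h)) (KG.of J)

theorem mulP_mem {J : Cx k X} {e : End (KG.of J : KG k (Sh k X))} {n : ℤ}
    (he : e ∈ KG.deg k _ _ n) : mulP h J e ∈ KG.deg k _ _ n :=
  KG.map_mem_deg (push k h) he

theorem push_comm {J : Cx k X} (φ : F ⟶ J) {n : ℤ} {z : Cocycle F F n}
    {e : End (KG.of J : KG k (Sh k X))} (hz : KG.mk k z ≫ KG.hom k φ = KG.hom k φ ≫ e) :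
    emk k (KG.zmap (push k h) z) ≫ KG.hom k ((pushC k h).map φ) =
      KG.hom k ((pushC k h).map φ) ≫ mulP h J e := by
  have h1 := congrArg (KG.map k (push k h)).map hz
  rw [Functor.map_comp, Functor.map_comp, KG.map_hom, KG.map_mk] at h1
  exact h1

/-- The support estimate implies the cosupport estimate. -/
theorem intoF_gsz [CharZero k] [Nice X] [Nice Y] (hP : PDual k X N) (hh : IsProperMap h)
    {e : End (KG.of (I k X) : KG k (Sh k X))} (he : e ∈ KG.deg k _ _ 2)
    {D H : End (KG.of ((pushC k h).obj (I k X)) : KG k (Sh k Y))} {n : ℕ}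
    (hm : Mor (mulP h _ e) D H n) (hD : D ∈ KG.deg k _ _ (-2)) {r : ℤ}
    (h1 : ∀ c, ∃ Z : Set Y, Dm Z (r - c - 1) ∧ ∀ x ∉ Z, OntoF (Stk k x) (mulP h _ e) c)
    (U : Opens Y) {Z : Set Y} {d : ℤ} (hd : Dm Z d) :
    IntoF (GsZ k U Z) (mulP h _ e) (N - (r + d)) := by
  obtain ⟨F, F', P, ρ, σ, hF, hF', hρ, hσ, hα⟩ := hP
  obtain ⟨z, z', hz, h2, h3⟩ := hα e he
  have hJ := (injC_I k X).push h
  have := qis_push h hF (softC_I k X) ρ
  have := qis_push h hF'.softC (softC_I k X) σ
  have := qis_gcz ((pushC k h).map ρ) ((hF.push h hh).cone hJ.softC _) U hd.1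
  have := qis_gsz ((pushC k h).map σ) ((hF'.push h).cone hJ.flqC _) U hd.1
  exact (intoF_iff _ _ (emk_mem _) (push_comm σ h3) _).1 ((P.push hh).intoF hd.1 (hz.push hh)
    ((ontoF_iff _ _ (emk_mem _) (push_comm ρ h2) _).2
      (ontoF_gcz hJ.softC hm (mulP_mem he) hD h1 U hd)))

end P275PA
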